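import Vale.Agent.P219.Gen.Defs

/-!
# P219: the first even moments of the cosine of a Gaussian direction

By symmetry alone: rotations give the mixed moments, and the squares of the coordinates of a
direction sum to one.
-/

noncomputable section

open MeasureTheory Set Filter Topology Matrix
open scoped RealInnerProductSpace

namespace Vale.Agent.P219.CH.Gen.Cosine

variable {n : ℕ}

/-- Euclidean space. -/
abbrev E (n : ℕ) := EuclideanSpace ℝ (Fin n)

/-- The Gaussian weight. -/
def phi (w : E n) : ℝ := Real.exp (-(1 / 2) * ‖w‖ ^ 2)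

/-- The cosine with a fixed vector, times its length. -/
def dir (η w : E n) : ℝ := ⟪η, w⟫ / ‖w‖

/-- The Gaussian mean of a function, not normalised. -/
def mom (g : E n → ℝ) : ℝ := ∫ w, phi w * g w

theorem integrable_phi : Integrable (phi (n := n)) := by
  refine Integrable.of_integral_ne_zero ?_
  rw [show phi = fun w : E n => Real.exp (-(1 / 2) * ‖w‖ ^ 2) from rfl,
    GaussianFourier.integral_rexp_neg_mul_sq_norm (V := E n) (b := 1 / 2) (by norm_num)]
  positivity

theorem abs_dir_le (η w : E n) : |dir η w| ≤ ‖η‖ := by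
  rw [dir, abs_div, abs_norm]
  rcases eq_or_ne w 0 with rfl | hw
  · simp
  · rw [div_le_iff₀ (norm_pos_iff.2 hw)]
    exact abs_real_inner_le_norm η w

theorem measurable_dir (η : E n) : Measurable (dir η) :=
  (continuous_const.inner continuous_id).measurable.div measurable_norm

theorem integrable_of_bound {g : E n → ℝ} (hg : Measurable g) {c : ℝ} (hc : ∀ w, |g w| ≤ c) :
    Integrable fun w => phi w * g w :=
  integrable_phi.mul_bdd (c := c) hg.aestronglyMeasurable
    (Eventually.of_forall fun w => by rw [Real.norm_eq_abs]; exact hc w)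

theorem integrable_dir_pow (η : E n) (k : ℕ) : Integrable fun w => phi w * dir η w ^ k :=
  integrable_of_bound ((measurable_dir η).pow_const k) fun w => by
    rw [abs_pow]
    exact pow_le_pow_left₀ (abs_nonneg _) (abs_dir_le η w) k

theorem integrable_dir_mul (η ζ : E n) (j k : ℕ) :
    Integrable fun w => phi w * (dir η w ^ j * dir ζ w ^ k) :=
  integrable_of_bound (((measurable_dir η).pow_const j).mul ((measurable_dir ζ).pow_const k))
    fun w => by
      rw [abs_mul, abs_pow, abs_pow]
      exact mul_le_mul (pow_le_pow_left₀ (abs_nonneg _) (abs_dir_le η w) j)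
        (pow_le_pow_left₀ (abs_nonneg _) (abs_dir_le ζ w) k) (by positivity) (by positivity)

theorem mom_isometry (L : E n ≃ₗᵢ[ℝ] E n) (g : E n → ℝ) : mom (fun w => g (L w)) = mom g := by
  have h := L.measurePreserving.integral_comp L.toHomeomorph.measurableEmbedding
    (fun w => phi w * g w)
  simpa [mom, phi] using h

theorem mom_dir_isometry (L : E n ≃ₗᵢ[ℝ] E n) (η : E n) (k : ℕ) :
    mom (fun w => dir (L η) w ^ k) = mom (fun w => dir η w ^ k) := by
  rw [← mom_isometry L (fun w => dir (L η) w ^ k)]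
  simp [dir]

theorem mom_dir_smul (c : ℝ) (η : E n) (k : ℕ) :
    mom (fun w => dir (c • η) w ^ k) = c ^ k * mom (fun w => dir η w ^ k) := by
  simp only [mom, dir, ← integral_const_mul]
  refine integral_congr_ae (Eventually.of_forall fun w => ?_)
  simp only [real_inner_smul_left, mul_div_assoc, mul_pow]
  ring

/-- A coordinate vector. -/
def e (i : Fin n) : E n := EuclideanSpace.single i 1

theorem norm_e (i : Fin n) : ‖e i‖ = 1 := by simp [e]

theorem mom_dir_eq (η : E n) (i : Fin n) (k : ℕ) :
    mom (fun w => dir η w ^ k) = ‖η‖ ^ k * mom (fun w => dir (e i) w ^ k) := by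
  have h : ‖η‖ = ‖‖η‖ • e i‖ := by simp [norm_smul, norm_e]
  rw [← mom_dir_smul, ← mom_dir_isometry (ℝ ∙ (η - ‖η‖ • e i))ᗮ.reflection η k,
    Submodule.reflection_sub h]

theorem dir_e (i : Fin n) (w : E n) : dir (e i) w = w i / ‖w‖ := by
  simp [dir, e, EuclideanSpace.inner_single_left]

variable [NeZero n]

theorem ae_sum_sq : ∀ᵐ w : E n, ∑ i, dir (e i) w ^ 2 = 1 := by
  filter_upwards [Measure.ae_ne volume (0 : E n)] with w hw
  have h : ∑ i, w i ^ 2 = ‖w‖ ^ 2 := by
    rw [EuclideanSpace.norm_sq_eq]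
    simp [Real.norm_eq_abs, sq_abs]
  simp only [dir_e, div_pow, ← Finset.sum_div, h]
  exact div_self (pow_ne_zero 2 (norm_ne_zero_iff.2 hw))

/-- The moment of the first coordinate of a direction. -/
def axis (n : ℕ) [NeZero n] (k : ℕ) : ℝ := mom fun w : E n => dir (e 0) w ^ k

/-- The mixed moment of two coordinates. -/
def mixed (i j : Fin n) (p q : ℕ) : ℝ := mom fun w => dir (e i) w ^ p * dir (e j) w ^ q

theorem mixed_zero (i j : Fin n) (p : ℕ) : mixed i j p 0 = axis n p := by
  rw [mixed, axis]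
  simp only [pow_zero, mul_one]
  rw [mom_dir_eq (e i) 0 p, norm_e, one_pow, one_mul]

theorem sum_mixed (i : Fin n) (p : ℕ) : ∑ j, mixed i j p 2 = axis n p := by
  rw [← mixed_zero i i p]
  simp only [mixed, mom]
  rw [← integral_finsetSum _ fun j _ => integrable_dir_mul (e i) (e j) p 2]
  refine integral_congr_ae (ae_sum_sq.mono fun w hw => ?_)
  simp only [← Finset.mul_sum, hw, pow_zero, mul_one]

theorem norm_comb {i j : Fin n} (hij : i ≠ j) (t : ℝ) : ‖e i + t • e j‖ ^ 2 = 1 + t ^ 2 := by
  rw [norm_add_sq_real, real_inner_smul_right, norm_smul, norm_e, norm_e, mul_one,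
    Real.norm_eq_abs, sq_abs]
  simp [e, EuclideanSpace.inner_single_left, hij]

/-- The symmetrised binomial expansion of a rotated moment. -/
theorem rotated {i j : Fin n} (hij : i ≠ j) (t : ℝ) (k : ℕ) :
    mom (fun w => (dir (e i + t • e j) w ^ (2 * k) +
      dir (e i + (-t) • e j) w ^ (2 * k))) = 2 * (1 + t ^ 2) ^ k * axis n (2 * k) := by
  have h : ∀ s : ℝ, mom (fun w => dir (e i + s • e j) w ^ (2 * k)) =
      (1 + s ^ 2) ^ k * axis n (2 * k) := fun s => by
    rw [mom_dir_eq _ 0, pow_mul, norm_comb hij, axis]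
  have h1 := h t
  have h2 := h (-t)
  rw [neg_sq] at h2
  simp only [mom] at h1 h2 ⊢
  simp only [mul_add]
  rw [integral_add (integrable_dir_pow _ _) (integrable_dir_pow _ _), h1, h2]
  ring

theorem mixed_two {i j : Fin n} (hij : i ≠ j) : mixed i j 2 2 = axis n 4 / 3 := by
  have h := rotated hij 1 2
  have e : mom (fun w => (dir (e i + (1 : ℝ) • e j) w ^ (2 * 2) +
      dir (e i + (-1 : ℝ) • e j) w ^ (2 * 2))) =
      2 * mixed i j 4 0 + 2 * mixed j i 4 0 + 12 * mixed i j 2 2 := by
    simp only [mixed, mom, ← integral_const_mul]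
    have i1 := (integrable_dir_mul (Cosine.e i) (Cosine.e j) 4 0).const_mul 2
    have i2 := (integrable_dir_mul (Cosine.e j) (Cosine.e i) 4 0).const_mul 2
    have i12 : Integrable fun w => 2 * (phi w * (dir (Cosine.e i) w ^ 4 * dir (Cosine.e j) w ^ 0)) +
      2 * (phi w * (dir (Cosine.e j) w ^ 4 * dir (Cosine.e i) w ^ 0)) := i1.add i2
    rw [← integral_add i1 i2, ← integral_add i12 ((integrable_dir_mul _ _ 2 2).const_mul 12)]
    refine integral_congr_ae (Eventually.of_forall fun w => ?_)
    simp only [dir, inner_add_left, real_inner_smul_left]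
    ring
  rw [e, mixed_zero, mixed_zero] at h
  linarith

theorem mixed_four {i j : Fin n} (hij : i ≠ j) : mixed i j 4 2 = axis n 6 / 5 := by
  have e : ∀ t : ℝ, mom (fun w => (dir (e i + t • e j) w ^ (2 * 3) +
      dir (e i + (-t) • e j) w ^ (2 * 3))) =
      2 * mixed i j 6 0 + 30 * t ^ 2 * mixed i j 4 2 + 30 * t ^ 4 * mixed i j 2 4 +
        2 * t ^ 6 * mixed j i 6 0 := by
    intro t
    simp only [mixed, mom, ← integral_const_mul]
    have i1 := (integrable_dir_mul (Cosine.e i) (Cosine.e j) 6 0).const_mul 2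
    have i2 := (integrable_dir_mul (Cosine.e i) (Cosine.e j) 4 2).const_mul (30 * t ^ 2)
    have i3 := (integrable_dir_mul (Cosine.e i) (Cosine.e j) 2 4).const_mul (30 * t ^ 4)
    have i12 : Integrable fun w => 2 * (phi w * (dir (Cosine.e i) w ^ 6 * dir (Cosine.e j) w ^ 0)) +
      30 * t ^ 2 * (phi w * (dir (Cosine.e i) w ^ 4 * dir (Cosine.e j) w ^ 2)) := i1.add i2
    have i123 : Integrable fun w => 2 * (phi w * (dir (Cosine.e i) w ^ 6 * dir (Cosine.e j) w ^ 0)) +
      30 * t ^ 2 * (phi w * (dir (Cosine.e i) w ^ 4 * dir (Cosine.e j) w ^ 2)) +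
      30 * t ^ 4 * (phi w * (dir (Cosine.e i) w ^ 2 * dir (Cosine.e j) w ^ 4)) := i12.add i3
    rw [← integral_add i1 i2, ← integral_add i12 i3,
      ← integral_add i123 ((integrable_dir_mul _ _ 6 0).const_mul (2 * t ^ 6))]
    refine integral_congr_ae (Eventually.of_forall fun w => ?_)
    simp only [dir, inner_add_left, real_inner_smul_left]
    ring
  have h1 := rotated hij 1 3
  have h2 := rotated hij 2 3
  rw [e, mixed_zero, mixed_zero] at h1 h2
  linarith

theorem axis_zero : axis n 0 = mass n := by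
  have h := (PiLp.volume_preserving_toLp (Fin n)).integral_comp'
    (f := MeasurableEquiv.toLp 2 (Fin n → ℝ)) (fun w : E n => Real.exp (-(1 / 2) * ‖w‖ ^ 2))
  simp only [axis, mom, pow_zero, mul_one, phi]
  rw [← h, mass]
  refine integral_congr_ae (Eventually.of_forall fun v => ?_)
  simp only [MeasurableEquiv.coe_toLp, EuclideanSpace.norm_sq_eq, dotProduct, Real.norm_eq_abs,
    sq_abs]
  congr 1
  simp only [← sq]
  ring

theorem axis_rec {p : ℕ} {c : ℝ} (hm : ∀ j : Fin n, j ≠ 0 → mixed 0 j p 2 = c * axis n (p + 2)) :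
    axis n p = (1 + ((n : ℝ) - 1) * c) * axis n (p + 2) := by
  have h0 : mixed (0 : Fin n) 0 p 2 = axis n (p + 2) := by
    simp only [mixed, axis, ← pow_add]
  have h1 := sum_mixed (0 : Fin n) p
  rw [← Finset.add_sum_erase _ _ (Finset.mem_univ (0 : Fin n)), h0,
    Finset.sum_congr rfl fun j hj => hm j (Finset.ne_of_mem_erase hj), Finset.sum_const,
    Finset.card_erase_of_mem (Finset.mem_univ _), Finset.card_univ, Fintype.card_fin,
    nsmul_eq_mul, Nat.cast_sub (NeZero.one_le)] at h1
  push_cast at h1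
  linarith

theorem axis_two : (n : ℝ) * axis n 2 = mass n := by
  have h : axis n 0 = (1 + ((n : ℝ) - 1) * 1) * axis n (0 + 2) := axis_rec fun j _ => by
    rw [one_mul, mixed, axis]
    simp only [pow_zero, one_mul]
    rw [mom_dir_eq (e j) 0, norm_e, one_pow, one_mul]
  rw [← axis_zero, h]
  ring

theorem axis_four : ((n : ℝ) + 2) * axis n 4 = 3 * axis n 2 := by
  have h : axis n 2 = (1 + ((n : ℝ) - 1) * (1 / 3)) * axis n (2 + 2) := axis_rec fun j hj => by
    rw [mixed_two (Ne.symm hj)]; ring
  linarith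

theorem axis_six : ((n : ℝ) + 4) * axis n 6 = 5 * axis n 4 := by
  have h : axis n 4 = (1 + ((n : ℝ) - 1) * (1 / 5)) * axis n (4 + 2) := axis_rec fun j hj => by
    rw [mixed_four (Ne.symm hj)]; ring
  linarith

/-- On the side where the cosine is positive an even power has half its moment. -/
theorem cmean_pow {k : ℕ} (hk : Even k) (hk0 : k ≠ 0) :
    cmean n (fun c => c ^ k) = axis n k / 2 / mass n := by
  set F : E n → ℝ := fun w => max (dir (e 0) w) 0 ^ k
  have hb : ∀ s : ℝ, ∀ w : E n, |max (s * dir (e 0) w) 0 ^ k| ≤ |s| ^ k := fun s w => by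
    rw [abs_pow]
    refine pow_le_pow_left₀ (abs_nonneg _) ?_ k
    rw [abs_of_nonneg (le_max_right _ _)]
    refine max_le ((le_abs_self _).trans ?_) (abs_nonneg s)
    rw [abs_mul]
    exact mul_le_of_le_one_right (abs_nonneg s) ((abs_dir_le _ w).trans (norm_e 0).le)
  have hi : ∀ s : ℝ, Integrable fun w => phi w * max (s * dir (e (0 : Fin n)) w) 0 ^ k :=
    fun s => integrable_of_bound
      (((((measurable_dir (e 0)).const_mul s)).max measurable_const).pow_const k) (hb s)
  have e1 : mom (fun w : E n => max (-dir (e 0) w) 0 ^ k) = mom F := by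
    rw [← mom_isometry (LinearIsometryEquiv.neg ℝ) F]
    simp [F, dir, neg_div]
  have e2 : mom F + mom (fun w : E n => max (-dir (e 0) w) 0 ^ k) = axis n k := by
    simp only [mom, axis, F]
    rw [← integral_add (by simpa using hi 1) (by simpa using hi (-1))]
    refine integral_congr_ae (Eventually.of_forall fun w => ?_)
    simp only
    rcases le_total 0 (dir (e 0) w) with h | h
    · simp [max_eq_left h, max_eq_right (neg_nonpos.2 h), zero_pow hk0]
    · simp [max_eq_right h, max_eq_left (neg_nonneg.2 h), zero_pow hk0, hk.neg_pow]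
  have h := (PiLp.volume_preserving_toLp (Fin n)).integral_comp'
    (f := MeasurableEquiv.toLp 2 (Fin n → ℝ)) (fun w : E n => phi w * F w)
  have e3 : (∫ v : Fin n → ℝ, Real.exp (-(v ⬝ᵥ v / 2)) *
      {v : Fin n → ℝ | 0 < v 0}.indicator (fun v => (v 0 / Real.sqrt (v ⬝ᵥ v)) ^ k) v) = mom F := by
    rw [mom, ← h]
    refine integral_congr_ae (Eventually.of_forall fun v => ?_)
    have hn : ‖(WithLp.toLp 2 v : E n)‖ = Real.sqrt (v ⬝ᵥ v) := by
      rw [EuclideanSpace.norm_eq]
      simp [dotProduct, sq]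
    simp only [MeasurableEquiv.coe_toLp, phi, F, dir_e, hn]
    congr 1
    · congr 1
      rw [Real.sq_sqrt (show 0 ≤ v ⬝ᵥ v from Finset.sum_nonneg fun i _ => mul_self_nonneg (v i))]
      ring
    · rcases lt_or_ge 0 (v 0) with h | h
      · rw [Set.indicator_of_mem (show v ∈ {v : Fin n → ℝ | 0 < v 0} from h),
          max_eq_left (div_nonneg h.le (Real.sqrt_nonneg _))]
      · rw [Set.indicator_of_notMem (show v ∉ {v : Fin n → ℝ | 0 < v 0} from not_lt.2 h),
          max_eq_right (div_nonpos_of_nonpos_of_nonneg h (Real.sqrt_nonneg _)), zero_pow hk0]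
  rw [cmean, e3]
  congr 1
  linarith

theorem mass_pos : 0 < mass n := by
  rw [← axis_zero]
  simp only [axis, mom, pow_zero, mul_one, phi]
  rw [GaussianFourier.integral_rexp_neg_mul_sq_norm (V := E n) (b := 1 / 2) (by norm_num)]
  positivity

end Vale.Agent.P219.CH.Gen.Cosine
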