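import Vale.Agent.P219.Six.Defs
import Vale.Agent.P219.Dir.Defs
import Vale.Agent.P219.Bend.Defs

/-!
# P219: from a pointwise certificate to the sharp inequality, any dimension

A certificate is a weight (up to `ε`) whose symmetrised pair kernel is nonnegative and dominates
`a c d + a d c + 2 b c d r` on paired crossings, with equality in the mean on the round sphere.
-/

noncomputable section

open MeasureTheory Set Filter Topology Matrix
open scoped ENNReal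

namespace Vale.Agent.P219.CH.Gen

/-- The mass of the standard Gaussian weight. -/
def mass (n : ℕ) : ℝ := ∫ v : Fin n → ℝ, Real.exp (-(v ⬝ᵥ v / 2))

/-- The radial integral of the Gaussian weight. -/
def radial (n : ℕ) : ℝ := ∫ r in Ioi (0 : ℝ), r ^ (n - 1) * Real.exp (-(r ^ 2 / 2))

/-- The mean of `g` over the cosine of a direction with an axis, on the side where it is
positive. -/
def cmean (n : ℕ) [NeZero n] (g : ℝ → ℝ) : ℝ :=
  (∫ v : Fin n → ℝ, Real.exp (-(v ⬝ᵥ v / 2)) *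
      {v : Fin n → ℝ | 0 < v 0}.indicator (fun v => g (v 0 / Real.sqrt (v ⬝ᵥ v))) v) / mass n

/-- Twice the symmetrised integrand `1 + kern` in units where the mean curvature is `n - 1`. -/
def sym (n : ℕ) (w : ℝ × ℝ → ℝ) (r c d : ℝ) : ℝ :=
  2 + Dir.kern n ((n : ℝ) - 1) w (r ^ 2 / 2) (r * c) d +
    Dir.kern n ((n : ℝ) - 1) w (r ^ 2 / 2) (r * d) c

/-- A certificate of the sharp constant in dimension `n`. -/
structure Cert (n : ℕ) [NeZero n] (a : ℝ → ℝ) (b : ℝ) : Prop where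
  b_nonneg : 0 ≤ b
  measurable_a : Measurable a
  a_nonpos : ∀ c ∈ Icc (0 : ℝ) 1, a c ≤ 0
  a_bounded : ∃ B, ∀ c ∈ Icc (0 : ℝ) 1, -B ≤ a c
  value : cmean n (fun c => -a c) = b / n - 1
  weight : ∀ ε T : ℝ, 0 < ε → 0 < T → ∃ w : ℝ × ℝ → ℝ, ContDiff ℝ 1 w ∧
    (∀ p q, 0 ≤ p → q ^ 2 ≤ 2 * p → 0 < w (p, q)) ∧
    (∀ r c d, r ∈ Icc 0 T → c ∈ Icc (-1 : ℝ) 1 → d ∈ Icc (-1 : ℝ) 1 → -ε ≤ sym n w r c d) ∧
    ∀ r c d, r ∈ Ioc 0 T → c ∈ Ioc (0 : ℝ) 1 → d ∈ Ioc (0 : ℝ) 1 →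
      a c * d + a d * c + 2 * b * c * d * r - ε * (c * d) ≤ r ^ (n - 1) * sym n w r c d

/-- The weight at scale `s`. -/
def scaled (w : ℝ × ℝ → ℝ) (s : ℝ) (z : ℝ × ℝ) : ℝ := w (s ^ 2 * z.1, s * z.2)

/-- The signed pair integrand at scale `s`: the row of `x` at `y` plus the row of `y` at `x`. -/
def pairSym {n : ℕ} (G : (Fin n → ℝ) → Matrix (Fin n) (Fin n) ℝ)
    (D : (Fin n → ℝ) → (Fin n → ℝ) → ℝ) (u : (Fin n → ℝ) → ℝ) (w : ℝ × ℝ → ℝ) (s : ℝ)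
    (x y : Fin n → ℝ) : ℝ :=
  sym n w (s * Real.sqrt (2 * D x y)) (Dir.scos G D u y x) (Dir.scos G D u x y)

/-! ## Pins -/

/-- The geodesic change of variables from one point, with Rauch's Jacobian bound. -/
def PolarPin (n : ℕ) : Prop :=
  2 ≤ n → ∀ (G : (Fin n → ℝ) → Matrix (Fin n) (Fin n) ℝ)
    (D : (Fin n → ℝ) → (Fin n → ℝ) → ℝ) (e : Six.Phase n → Fin n → ℝ),
    IsCH G D → Six.IsExp G D e →
    ∀ (x : Fin n → ℝ) (f : (Fin n → ℝ) → ℝ≥0∞), Measurable f →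
      ∫⁻ v, ENNReal.ofReal (Six.fibre G x v) * ∫⁻ t in Ioi (0 : ℝ),
          f (Six.line e (x, v) t) *
            ENNReal.ofReal ((t * Six.vnorm G x v) ^ (n - 1) * Six.vnorm G x v) ≤
        ENNReal.ofReal (radial n) * ∫⁻ y, f y ∂Six.volM G

/-- The law of the cosine of a Gaussian direction with a covector, and the normalisations. -/
def MomentPin (n : ℕ) [NeZero n] : Prop :=
  2 ≤ n → 0 < mass n ∧ mass n = n * Bend.unitBall n * radial n ∧
    ∀ (G : (Fin n → ℝ) → Matrix (Fin n) (Fin n) ℝ) (x ξ : Fin n → ℝ), (G x).PosDef →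
      (∫⁻ v, ENNReal.ofReal (Six.fibre G x v) = ENNReal.ofReal (mass n)) ∧
      ∀ (g : ℝ → ℝ) (B : ℝ), Measurable g → (∀ c ∈ Icc (0 : ℝ) 1, 0 ≤ g c ∧ g c ≤ B) →
        ∫⁻ v, ENNReal.ofReal (Six.fibre G x v) * {v | 0 < ξ ⬝ᵥ v}.indicator
            (fun v => ENNReal.ofReal (g (ξ ⬝ᵥ v / (conorm G x ξ * Six.vnorm G x v)))) v ≤
          ENNReal.ofReal (mass n * cmean n g)

/-- The pair integral along geodesics. -/
def PairPin (n : ℕ) [NeZero n] : Prop :=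
  2 ≤ n → ∀ (a : ℝ → ℝ) (b : ℝ), Cert n a b →
    ∀ (G : (Fin n → ℝ) → Matrix (Fin n) (Fin n) ℝ) (D : (Fin n → ℝ) → (Fin n → ℝ) → ℝ)
      (e : Six.Phase n → Fin n → ℝ), IsCH G D → Six.IsExp G D e →
    ∀ (o : Fin n → ℝ) (R η s ε T : ℝ) (w : ℝ × ℝ → ℝ) (u : (Fin n → ℝ) → ℝ),
      0 < η → η < 1 / 2 → 0 < s → 0 < ε →
      (∀ x y, D o x ≤ R → D o y ≤ R → s * Real.sqrt (2 * D x y) ≤ T) →
      ContDiff ℝ 1 w →
      (∀ r c d, r ∈ Icc 0 T → c ∈ Icc (-1 : ℝ) 1 → d ∈ Icc (-1 : ℝ) 1 → -ε ≤ sym n w r c d) →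
      (∀ r c d, r ∈ Ioc 0 T → c ∈ Ioc (0 : ℝ) 1 → d ∈ Ioc (0 : ℝ) 1 →
        a c * d + a d * c + 2 * b * c * d * r - ε * (c * d) ≤ r ^ (n - 1) * sym n w r c d) →
      Comp {y | D o y ≤ R} u →
      mass n * (2 * b * s * ((1 - 2 * η) ^ 2 * (vol G u - gap G u / η))
          - (2 * (b / n - 1) + ε) * per G u) ≤
        radial n * s ^ (n - 1) *
          ∫ x, (∫ y, (pairSym G D u w s x y + ε) * (conorm G y (cd u y) * dens G y)) *
            (conorm G x (cd u x) * dens G x)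

/-- The sharp inequality in dimension `n`. -/
def SharpDim (n : ℕ) : Prop :=
  ∀ (G : (Fin n → ℝ) → Matrix (Fin n) (Fin n) ℝ) (D : (Fin n → ℝ) → (Fin n → ℝ) → ℝ), IsCH G D →
    ∀ (Ω : Set (Fin n → ℝ)) (A : ℝ), MeasurableSet Ω → Bornology.IsBounded Ω →
      PerimeterLE G Ω A →
      (n : ℝ) * Bend.unitBall n ^ (1 / n : ℝ) * volG G Ω ^ (((n : ℝ) - 1) / n) ≤ A

/-- The assembly: a certificate gives the sharp inequality. -/
def AssemblyPin (n : ℕ) [NeZero n] : Prop :=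
  3 ≤ n → MinPin n → Dir.DirRowPin n → MomentPin n → PairPin n →
    ∀ (a : ℝ → ℝ) (b : ℝ), Cert n a b → SharpDim n

/-- The pair integral from its parts. -/
def PairAssemblyPin (n : ℕ) [NeZero n] : Prop :=
  Six.LinePin → Six.FlowPin n → PolarPin n → MomentPin n → PairPin n

end Vale.Agent.P219.CH.Gen
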