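import Vale.Agent.P219.Gen.Moment

/-!
# P219: the law of the cosine in odd dimensions

Split off the first coordinate and substitute `a = |q| τ`: in dimension `2 j + 3` the cosine has a
density proportional to `(1 - c ^ 2) ^ j`. The Gaussian mass gives the constant.
-/

noncomputable section

open MeasureTheory Set Filter Topology Matrix
open scoped ENNReal

namespace Vale.Agent.P219.CH.Gen

namespace Law

open Moment

variable {k : ℕ}

lemma lintegral_line_scale {r : ℝ} (hr : 0 < r) (F : ℝ → ℝ≥0∞) (hF : Measurable F) :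
    ∫⁻ a, F a = ENNReal.ofReal r * ∫⁻ t, F (r * t) := by
  have h := lintegral_map (μ := volume) hF (measurable_const_mul r)
  rw [Real.map_volume_mul_left hr.ne', lintegral_smul_measure, smul_eq_mul] at h
  rw [← h, ← mul_assoc, ← ENNReal.ofReal_mul hr.le, abs_of_pos (inv_pos.2 hr),
    mul_inv_cancel₀ hr.ne', ENNReal.ofReal_one, one_mul]

lemma lintegral_space_scale {r : ℝ} (hr : 0 < r) (F : (Fin k → ℝ) → ℝ≥0∞) (hF : Measurable F) :
    ∫⁻ q, F (r • q) = ENNReal.ofReal (r⁻¹ ^ k) * ∫⁻ q, F q := by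
  have h := lintegral_map (μ := volume) hF (measurable_const_smul r)
  rw [Measure.map_addHaar_smul volume hr.ne', lintegral_smul_measure, smul_eq_mul,
    Module.finrank_fin_fun] at h
  rw [← h, abs_of_pos (inv_pos.2 (pow_pos hr k)), inv_pow]

/-- The radial constant. -/
def radK (k : ℕ) : ℝ≥0∞ :=
  ∫⁻ q : Fin k → ℝ, ENNReal.ofReal (Real.sqrt (q ⬝ᵥ q) * Real.exp (-(q ⬝ᵥ q) / 2))

lemma sqrt_dot_smul {r : ℝ} (hr : 0 ≤ r) (q : Fin k → ℝ) :
    Real.sqrt ((r • q) ⬝ᵥ (r • q)) = r * Real.sqrt (q ⬝ᵥ q) := by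
  rw [smul_dotProduct, dotProduct_smul, smul_eq_mul, smul_eq_mul, ← mul_assoc, ← sq,
    Real.sqrt_mul (sq_nonneg r), Real.sqrt_sq hr]

lemma lintegral_dot_scale (τ : ℝ) :
    ∫⁻ q : Fin k → ℝ, ENNReal.ofReal (Real.sqrt (q ⬝ᵥ q) *
        Real.exp (-((q ⬝ᵥ q) * (1 + τ ^ 2)) / 2)) =
      ENNReal.ofReal ((Real.sqrt (1 + τ ^ 2))⁻¹ ^ (k + 1)) * radK k := by
  obtain ⟨r, hr⟩ : ∃ r, r = Real.sqrt (1 + τ ^ 2) := ⟨_, rfl⟩
  have hr0 : 0 < r := hr ▸ Real.sqrt_pos.2 (by positivity)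
  have hr2 : r ^ 2 = 1 + τ ^ 2 := hr ▸ Real.sq_sqrt (by positivity)
  rw [← hr, radK, pow_succ' r⁻¹ k,
    ENNReal.ofReal_mul (inv_nonneg.2 hr0.le), mul_assoc,
    ← lintegral_space_scale hr0 _ (by simp only [dotProduct]; fun_prop),
    ← lintegral_const_mul' _ _ ENNReal.ofReal_ne_top]
  refine lintegral_congr fun q => ?_
  rw [← ENNReal.ofReal_mul (inv_nonneg.2 hr0.le), sqrt_dot_smul hr0.le, ← mul_assoc,
    ← mul_assoc, inv_mul_cancel₀ hr0.ne', one_mul, ← hr2]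
  congr 3
  simp only [smul_dotProduct, dotProduct_smul, smul_eq_mul]
  ring

/-- The two-sided law in coordinates. -/
lemma lintegral_coord (hk : k ≠ 0) {g : ℝ → ℝ≥0∞} (hg : Measurable g) :
    ∫⁻ w : EuclideanSpace ℝ (Fin (k + 1)), ENNReal.ofReal (phi w) * g (w 0 / ‖w‖) =
      radK k * ∫⁻ τ : ℝ, ENNReal.ofReal ((Real.sqrt (1 + τ ^ 2))⁻¹ ^ (k + 1)) *
        g (τ / Real.sqrt (1 + τ ^ 2)) := by
  have : Nonempty (Fin k) := ⟨⟨0, Nat.pos_of_ne_zero hk⟩⟩
  set H : ℝ × (Fin k → ℝ) → ℝ≥0∞ := fun p =>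
    ENNReal.ofReal (Real.exp (-((p.1 ^ 2 + p.2 ⬝ᵥ p.2) / 2))) *
      g (p.1 / Real.sqrt (p.1 ^ 2 + p.2 ⬝ᵥ p.2)) with hH
  have hHm : Measurable H := by
    have hq : Measurable fun p : ℝ × (Fin k → ℝ) => p.2 ⬝ᵥ p.2 := by
      simp only [dotProduct]; fun_prop
    have hs : Measurable fun p : ℝ × (Fin k → ℝ) => p.1 ^ 2 + p.2 ⬝ᵥ p.2 :=
      (measurable_fst.pow_const 2).add hq
    exact (((hs.div_const 2).neg).exp.ennreal_ofReal).mul (hg.comp (measurable_fst.div hs.sqrt))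
  have e1 : ∫⁻ w : EuclideanSpace ℝ (Fin (k + 1)), ENNReal.ofReal (phi w) * g (w 0 / ‖w‖) =
      ∫⁻ p, H p := by
    rw [← (volume_preserving_piFinSuccAbove (fun _ : Fin (k + 1) => ℝ) 0).lintegral_comp hHm,
      ← (PiLp.volume_preserving_ofLp (Fin (k + 1))).lintegral_comp
        (f := fun v => H ((MeasurableEquiv.piFinSuccAbove (fun _ : Fin (k + 1) => ℝ) 0) v))
        (hHm.comp (MeasurableEquiv.measurable _))]
    refine lintegral_congr fun w => ?_
    have hn : ‖w‖ ^ 2 = w 0 ^ 2 + ∑ i : Fin k, w i.succ * w i.succ := by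
      rw [EuclideanSpace.norm_sq_eq, Fin.sum_univ_succ]
      simp [Real.norm_eq_abs, sq_abs, ← sq]
    simp only [hH, MeasurableEquiv.piFinSuccAbove_apply, dotProduct, phi]
    simp only [Fin.insertNthEquiv, Equiv.coe_fn_symm_mk, Fin.removeNth_zero, Fin.tail]
    rw [← hn, Real.sqrt_sq (norm_nonneg w)]
  rw [e1, Measure.volume_eq_prod, lintegral_prod_symm' _ hHm]
  have e2 : ∀ᵐ q : Fin k → ℝ, ∫⁻ a, H (a, q) = ∫⁻ τ : ℝ,
      ENNReal.ofReal (Real.sqrt (q ⬝ᵥ q) * Real.exp (-((q ⬝ᵥ q) * (1 + τ ^ 2)) / 2)) *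
        g (τ / Real.sqrt (1 + τ ^ 2)) := by
    filter_upwards [Measure.ae_ne volume (0 : Fin k → ℝ)] with q hq
    obtain ⟨r, hr⟩ : ∃ r, r = Real.sqrt (q ⬝ᵥ q) := ⟨_, rfl⟩
    have hqq : 0 < q ⬝ᵥ q := by
      obtain ⟨i, hi⟩ := Function.ne_iff.1 hq
      exact Finset.sum_pos' (fun j _ => mul_self_nonneg _)
        ⟨i, Finset.mem_univ _, mul_self_pos.2 hi⟩
    have hr0 : 0 < r := hr ▸ Real.sqrt_pos.2 hqq
    have hHq : Measurable fun a => H (a, q) := hHm.comp (measurable_id.prodMk measurable_const)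
    rw [lintegral_line_scale hr0 (fun a => H (a, q)) hHq, ← hr,
      ← lintegral_const_mul' _ _ ENNReal.ofReal_ne_top]
    refine lintegral_congr fun τ => ?_
    have hr2 : r ^ 2 = q ⬝ᵥ q := hr ▸ Real.sq_sqrt hqq.le
    have e3 : (r * τ) ^ 2 + q ⬝ᵥ q = r ^ 2 * (1 + τ ^ 2) := by rw [hr2.symm]; ring
    simp only [hH, e3]
    rw [← mul_assoc, ← ENNReal.ofReal_mul hr0.le, Real.sqrt_mul (sq_nonneg r),
      Real.sqrt_sq hr0.le, mul_div_mul_left _ _ hr0.ne', hr2, neg_div]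
  rw [lintegral_congr_ae e2, lintegral_lintegral_swap]
  · rw [← lintegral_const_mul _ (by fun_prop)]
    refine lintegral_congr fun τ => ?_
    rw [lintegral_mul_const _ (by simp only [dotProduct]; fun_prop), lintegral_dot_scale]
    ring
  · simp only [dotProduct]
    fun_prop

/-- The substitution `c = τ / sqrt (1 + τ ^ 2)`. -/
lemma lintegral_subst (j : ℕ) (g : ℝ → ℝ≥0∞) :
    ∫⁻ τ : ℝ, ENNReal.ofReal ((Real.sqrt (1 + τ ^ 2))⁻¹ ^ (2 * j + 2 + 1)) *
        g (τ / Real.sqrt (1 + τ ^ 2)) =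
      ∫⁻ c in Ioo (-1 : ℝ) 1, ENNReal.ofReal ((1 - c ^ 2) ^ j) * g c := by
  set φ : ℝ → ℝ := fun τ => τ / Real.sqrt (1 + τ ^ 2)
  have hs : ∀ τ : ℝ, 0 < Real.sqrt (1 + τ ^ 2) := fun τ => Real.sqrt_pos.2 (by positivity)
  have hs2 : ∀ τ : ℝ, Real.sqrt (1 + τ ^ 2) ^ 2 = 1 + τ ^ 2 := fun τ =>
    Real.sq_sqrt (by positivity)
  have hd : ∀ τ ∈ (univ : Set ℝ),
      HasDerivWithinAt φ ((Real.sqrt (1 + τ ^ 2))⁻¹ ^ 3) univ τ := fun τ _ => by
    have h : HasDerivAt φ _ τ := (hasDerivAt_id τ).div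
      (((hasDerivAt_pow 2 τ).const_add 1).sqrt (by positivity)) (hs τ).ne'
    refine (h.congr_deriv ?_).hasDerivWithinAt
    have := (hs τ).ne'
    simp only [id_eq]
    push_cast
    field_simp
    linear_combination hs2 τ
  have hinj : InjOn φ univ := fun a _ b _ hab => by
    have ha := hs2 a
    have hb := hs2 b
    simp only [φ] at hab
    rw [div_eq_div_iff (hs a).ne' (hs b).ne'] at hab
    have h2 : a ^ 2 = b ^ 2 := by
      have := congrArg (fun z => z ^ 2) hab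
      simp only [mul_pow, ha, hb] at this
      linarith
    have h3 : Real.sqrt (1 + a ^ 2) = Real.sqrt (1 + b ^ 2) := by rw [h2]
    rw [h3] at hab
    exact mul_right_cancel₀ (hs b).ne' hab
  have himg : φ '' univ = Ioo (-1 : ℝ) 1 := by
    refine Subset.antisymm ?_ fun c hc => ?_
    · rintro _ ⟨τ, -, rfl⟩
      refine abs_lt.1 ?_
      rw [abs_div, abs_of_pos (hs τ), div_lt_one (hs τ), ← Real.sqrt_sq_eq_abs]
      exact Real.sqrt_lt_sqrt (sq_nonneg τ) (by linarith)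
    · have hc2 : 0 < 1 - c ^ 2 := by nlinarith [hc.1, hc.2]
      refine ⟨c / Real.sqrt (1 - c ^ 2), mem_univ _, ?_⟩
      have hpos := Real.sqrt_pos.2 hc2
      have e : 1 + (c / Real.sqrt (1 - c ^ 2)) ^ 2 = (Real.sqrt (1 - c ^ 2))⁻¹ ^ 2 := by
        have := Real.sq_sqrt hc2.le
        field_simp
        linarith
      simp only [φ]
      rw [e, Real.sqrt_sq (inv_pos.2 hpos).le]
      field_simp
  have h1 := lintegral_image_eq_lintegral_abs_deriv_mul MeasurableSet.univ hd hinj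
    fun c => ENNReal.ofReal ((1 - c ^ 2) ^ j) * g c
  rw [himg, setLIntegral_univ] at h1
  rw [h1]
  refine lintegral_congr fun τ => ?_
  simp only [φ]
  rw [← mul_assoc, ← ENNReal.ofReal_mul (abs_nonneg _), abs_pow, abs_inv, abs_of_pos (hs τ)]
  congr 2
  have h2 : 1 - (τ / Real.sqrt (1 + τ ^ 2)) ^ 2 = (Real.sqrt (1 + τ ^ 2))⁻¹ ^ 2 := by
    have := (hs τ).ne'
    field_simp
    linear_combination hs2 τ
  rw [h2, ← pow_mul, ← pow_add]
  congr 1
  omega

lemma lintegral_Ioo {f : ℝ → ℝ} {a b : ℝ} (hab : a ≤ b) (hf : IntervalIntegrable f volume a b)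
    (h0 : ∀ c ∈ Ioo a b, 0 ≤ f c) :
    ∫⁻ c in Ioo a b, ENNReal.ofReal (f c) = ENNReal.ofReal (∫ c in a..b, f c) := by
  rw [intervalIntegral.integral_of_le hab, integral_Ioc_eq_integral_Ioo,
    ofReal_integral_eq_lintegral_ofReal (hf.1.mono_set Ioo_subset_Ioc_self)
      (ae_restrict_of_forall_mem measurableSet_Ioo h0)]

/-- The mass and the one-sided mean, as integrals in the cosine. -/
theorem cmean_eq (j : ℕ) {g : ℝ → ℝ} {B : ℝ} (hg : Measurable g)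
    (hgc : ContinuousOn g (Icc 0 1)) (hb : ∀ c ∈ Icc (0 : ℝ) 1, 0 ≤ g c ∧ g c ≤ B) :
    cmean (2 * j + 2 + 1) g * (∫ c in (-1 : ℝ)..1, (1 - c ^ 2) ^ j) =
      ∫ c in (0 : ℝ)..1, g c * (1 - c ^ 2) ^ j := by
  obtain ⟨R, hR⟩ : ∃ R, R = radK (2 * j + 2) := ⟨_, rfl⟩
  obtain ⟨K, hK⟩ : ∃ K, K = ∫ c in (-1 : ℝ)..1, (1 - c ^ 2) ^ j := ⟨_, rfl⟩
  obtain ⟨I, hI⟩ : ∃ I, I = ∫ c in (0 : ℝ)..1, g c * (1 - c ^ 2) ^ j := ⟨_, rfl⟩
  have hpos : ∀ c ∈ Ioo (-1 : ℝ) 1, (0 : ℝ) < (1 - c ^ 2) ^ j := fun c hc =>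
    pow_pos (by nlinarith [hc.1, hc.2]) j
  have hK0 : 0 < K := hK ▸ intervalIntegral.intervalIntegral_pos_of_pos_on
    ((by fun_prop : Continuous fun c : ℝ => (1 - c ^ 2) ^ j).intervalIntegrable _ _) hpos
    (by norm_num)
  have hmass : ENNReal.ofReal (mass (2 * j + 2 + 1)) = R * ENNReal.ofReal K := by
    rw [← integral_phi, ofReal_integral_eq_lintegral_ofReal integrable_phi
      (Eventually.of_forall fun w => (Real.exp_pos _).le), hR, hK,
      ← lintegral_Ioo (by norm_num) ((by fun_prop : Continuous fun c : ℝ => (1 - c ^ 2) ^ j).intervalIntegrable _ _)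
        fun c hc => (hpos c hc).le]
    have h := lintegral_coord (k := 2 * j + 2) (by omega) (g := fun _ => 1) measurable_const
    rw [lintegral_subst j fun _ => 1] at h
    simpa using h
  have hside : ENNReal.ofReal (mass (2 * j + 2 + 1) * cmean (2 * j + 2 + 1) g) =
      R * ENNReal.ofReal I := by
    rw [← lintegral_side hg hb, lintegral_coord (by omega)
      (hg.ennreal_ofReal.indicator measurableSet_Ioi), lintegral_subst j, hR, hI]
    congr 1
    have hint : IntervalIntegrable (fun c => g c * (1 - c ^ 2) ^ j) volume 0 1 :=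
      (hgc.mul (by fun_prop)).intervalIntegrable_of_Icc zero_le_one
    rw [← lintegral_Ioo zero_le_one hint fun c hc => mul_nonneg (hb c ⟨hc.1.le, hc.2.le⟩).1
      (hpos c ⟨by linarith [hc.1], hc.2⟩).le]
    rw [← lintegral_indicator measurableSet_Ioo, ← lintegral_indicator measurableSet_Ioo]
    refine lintegral_congr fun c => ?_
    by_cases h : c ∈ Ioo (0 : ℝ) 1
    · rw [indicator_of_mem h, indicator_of_mem (show c ∈ Ioo (-1 : ℝ) 1 from ⟨by linarith [h.1], h.2⟩),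
        indicator_of_mem (show c ∈ Ioi (0 : ℝ) from h.1), mul_comm (g c),
        ENNReal.ofReal_mul (hpos c ⟨by linarith [h.1], h.2⟩).le]
    · rw [indicator_of_notMem h]
      by_cases h' : c ∈ Ioo (-1 : ℝ) 1
      · rw [indicator_of_mem h', indicator_of_notMem (show c ∉ Ioi (0 : ℝ) from
          fun hc => h ⟨hc, h'.2⟩), mul_zero]
      · rw [indicator_of_notMem h']
  have hfin : R ≠ ⊤ := fun h => by
    rw [h, ENNReal.top_mul (by simpa using hK0)] at hmass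
    exact ENNReal.ofReal_ne_top hmass
  obtain ⟨ρ, hρ0, hρ⟩ : ∃ ρ : ℝ, 0 ≤ ρ ∧ R = ENNReal.ofReal ρ :=
    ⟨R.toReal, ENNReal.toReal_nonneg, (ENNReal.ofReal_toReal hfin).symm⟩
  have hI0 : 0 ≤ I := hI ▸ intervalIntegral.integral_nonneg zero_le_one fun c hc =>
    mul_nonneg (hb c hc).1 (pow_nonneg (by nlinarith [hc.1, hc.2]) j)
  rw [hρ, ← ENNReal.ofReal_mul hρ0] at hmass hside
  have hm : 0 < mass (2 * j + 2 + 1) := Gen.Moment.mass_pos
  have e1 : mass (2 * j + 2 + 1) = ρ * K :=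
    (ENNReal.ofReal_eq_ofReal_iff hm.le (by positivity)).1 hmass
  have hc0 : 0 ≤ cmean (2 * j + 2 + 1) g := by
    refine div_nonneg (integral_nonneg fun v => mul_nonneg (Real.exp_pos _).le ?_) hm.le
    refine Set.indicator_nonneg (fun v hv => ?_) v
    refine (hb _ ⟨div_nonneg (le_of_lt hv) (Real.sqrt_nonneg _), ?_⟩).1
    refine div_le_one_of_le₀ (Real.le_sqrt_of_sq_le ?_) (Real.sqrt_nonneg _)
    rw [sq]
    exact Finset.single_le_sum (f := fun i => v i * v i) (fun i _ => mul_self_nonneg _)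
      (Finset.mem_univ (0 : Fin (2 * j + 2 + 1)))
  have e2 : mass (2 * j + 2 + 1) * cmean (2 * j + 2 + 1) g = ρ * I :=
    (ENNReal.ofReal_eq_ofReal_iff (mul_nonneg hm.le hc0) (by positivity)).1 hside
  rw [← hK, ← hI]
  have hρ' : ρ ≠ 0 := fun h => by rw [h, zero_mul] at e1; exact hm.ne' e1
  refine mul_left_cancel₀ hρ' ?_
  rw [← e2, e1]
  ring

end Law

end Vale.Agent.P219.CH.Gen
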