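import Vale.Agent.P219.Gen.PairParts

/-!
# The negative terms and Santalo's term, any dimension
-/

noncomputable section

open MeasureTheory Set Filter Topology Matrix
open scoped ENNReal

namespace Vale.Agent.P219.CH.Gen

open Six (slp cosv)

variable {n : ℕ} {G : (Fin n → ℝ) → Matrix (Fin n) (Fin n) ℝ}
  {D : (Fin n → ℝ) → (Fin n → ℝ) → ℝ} {e : Six.Phase n → Fin n → ℝ}
  {u : (Fin n → ℝ) → ℝ} {η : ℝ} {o : Fin n → ℝ} {R : ℝ}

lemma measurable_fibre (h : IsCH G D) :
    Measurable fun p : Six.Phase n => Six.fibre G p.1 p.2 :=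
  ((h.continuous_dens.comp continuous_fst).mul
    ((h.continuous_vnorm.pow 2).div_const 2).neg.rexp).measurable

lemma measurable_fibre_right (h : IsCH G D) (x : Fin n → ℝ) :
    Measurable fun v : Fin n → ℝ => Six.fibre G x v :=
  (((h.continuous_vnorm.comp (continuous_const.prodMk continuous_id)).pow 2).div_const
    2).neg.rexp.measurable.const_mul (dens G x)

lemma lintegral_phase (h : IsCH G D) {K : Six.Phase n → ℝ≥0∞} (hK : Measurable K) :
    ∫⁻ p, K p ∂Six.liou G =
      ∫⁻ x, (∫⁻ v, ENNReal.ofReal (Six.fibre G x v) * K (x, v)) ∂Six.volM G := by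
  have hf := measurable_fibre h
  have hd : Measurable fun p : Six.Phase n =>
      ENNReal.ofReal (dens G p.1 * Six.fibre G p.1 p.2) :=
    ((h.continuous_dens.measurable.comp measurable_fst).mul hf).ennreal_ofReal
  rw [Six.liou, lintegral_withDensity_eq_lintegral_mul _ hd hK, Measure.volume_eq_prod,
    lintegral_prod _ (hd.mul hK).aemeasurable, Six.volM,
    lintegral_withDensity_eq_lintegral_mul _ h.continuous_dens.measurable.ennreal_ofReal
      (Measurable.lintegral_prod_right' (f := fun p : Six.Phase n =>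
        ENNReal.ofReal (Six.fibre G p.1 p.2) * K p) (hf.ennreal_ofReal.mul hK))]
  refine lintegral_congr fun x => ?_
  simp only [Pi.mul_apply, ENNReal.ofReal_mul (h.dens_pos x).le, mul_assoc]
  exact lintegral_const_mul _
    (((hf.comp measurable_prodMk_left).ennreal_ofReal).mul (hK.comp measurable_prodMk_left))

lemma cmean_nonneg [NeZero n] {g : ℝ → ℝ} (hm : 0 < mass n)
    (hg : ∀ c ∈ Icc (0 : ℝ) 1, 0 ≤ g c) : 0 ≤ cmean n g := by
  refine div_nonneg (integral_nonneg fun v => mul_nonneg (Real.exp_pos _).le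
    (Set.indicator_nonneg (fun z hz => hg _ ⟨?_, ?_⟩) v)) hm.le
  · exact div_nonneg (le_of_lt hz) (Real.sqrt_nonneg _)
  · refine div_le_one_of_le₀ (Real.le_sqrt_of_sq_le ?_) (Real.sqrt_nonneg _)
    rw [sq, dotProduct]
    exact Finset.single_le_sum (f := fun i => z i * z i) (fun i _ => mul_self_nonneg _)
      (Finset.mem_univ 0)

/-- The bound on one fibre for a negative term. -/
theorem fibre_weight_le [NeZero n] (hn : 2 ≤ n) (hmom : MomentPin n) (h : IsCH G D)
    {a : ℝ → ℝ} {B : ℝ} (ha : Measurable a) (ha0 : ∀ c ∈ Icc (0 : ℝ) 1, a c ≤ 0)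
    (haB : ∀ c ∈ Icc (0 : ℝ) 1, -B ≤ a c) (x ξ : Fin n → ℝ) {k : ℝ} (hk : 0 ≤ k) :
    ∫⁻ v, ENNReal.ofReal (Six.fibre G x v) * (ENNReal.ofReal (ξ ⬝ᵥ v) * ENNReal.ofReal
        ((k + -a (|ξ ⬝ᵥ v| / (conorm G x ξ * Six.vnorm G x v)) /
          (|ξ ⬝ᵥ v| / (conorm G x ξ * Six.vnorm G x v))) / Six.vnorm G x v)) ≤
      ENNReal.ofReal (mass n * (k + cmean n fun c => -a c) * conorm G x ξ) := by
  obtain ⟨hM, -, hG⟩ := hmom hn
  obtain ⟨h0, hg⟩ := hG G x ξ (h.posDef x)
  have hg' := hg (fun c => -a c) B ha.neg fun c hc => ⟨by linarith [ha0 c hc], by linarith [haB c hc]⟩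
  obtain ⟨cξ, hcξ⟩ : ∃ cξ, cξ = conorm G x ξ := ⟨_, rfl⟩
  rw [← hcξ] at hg' ⊢
  have hc0 : 0 ≤ cξ := hcξ ▸ conorm_nonneg x ξ
  have hE : 0 ≤ cmean n fun c => -a c := cmean_nonneg hM fun c hc => by linarith [ha0 c hc]
  have hpt : ∀ v, ENNReal.ofReal (Six.fibre G x v) * (ENNReal.ofReal (ξ ⬝ᵥ v) * ENNReal.ofReal
      ((k + -a (|ξ ⬝ᵥ v| / (cξ * Six.vnorm G x v)) / (|ξ ⬝ᵥ v| / (cξ * Six.vnorm G x v))) /
        Six.vnorm G x v)) ≤
      ENNReal.ofReal (k * cξ) * ENNReal.ofReal (Six.fibre G x v) +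
        ENNReal.ofReal cξ * (ENNReal.ofReal (Six.fibre G x v) * {v | 0 < ξ ⬝ᵥ v}.indicator
          (fun v => ENNReal.ofReal (-a (ξ ⬝ᵥ v / (cξ * Six.vnorm G x v)))) v) := by
    intro v
    rcases le_or_gt (ξ ⬝ᵥ v) 0 with hv | hv
    · simp [ENNReal.ofReal_of_nonpos hv]
    rw [Set.indicator_of_mem (show v ∈ {v | 0 < ξ ⬝ᵥ v} from hv), abs_of_pos hv]
    have hf : 0 ≤ Six.fibre G x v := mul_nonneg (h.dens_pos x).le (Real.exp_pos _).le
    have hle : ξ ⬝ᵥ v ≤ cξ * Six.vnorm G x v := hcξ ▸ (le_abs_self _).trans (h.dotProduct_le x ξ v)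
    have hN : 0 < Six.vnorm G x v := pos_of_mul_pos_right (hv.trans_le hle) hc0
    have hc : 0 < cξ := pos_of_mul_pos_left (hv.trans_le hle) hN.le
    obtain ⟨c, hcd⟩ : ∃ c, c = ξ ⬝ᵥ v / (cξ * Six.vnorm G x v) := ⟨_, rfl⟩
    rw [← hcd]
    have hcm : c ∈ Icc (0 : ℝ) 1 := by
      rw [hcd]; exact ⟨by positivity, (div_le_one (by positivity)).2 hle⟩
    rw [← ENNReal.ofReal_mul hv.le, ← ENNReal.ofReal_mul hf,
      ← ENNReal.ofReal_mul (mul_nonneg hk hc0), ← ENNReal.ofReal_mul hf, ← ENNReal.ofReal_mul hc0]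
    refine (ENNReal.ofReal_le_ofReal ?_).trans ENNReal.ofReal_add_le
    have e1 : ξ ⬝ᵥ v = c * cξ * Six.vnorm G x v := by rw [hcd]; field_simp
    have hc0' : 0 < c := by rw [hcd]; positivity
    rw [e1]
    have e2 : Six.fibre G x v * (c * cξ * Six.vnorm G x v * ((k + -a c / c) / Six.vnorm G x v)) =
        c * (k * cξ * Six.fibre G x v) + cξ * (Six.fibre G x v * -a c) := by
      field_simp
    rw [e2]
    have := mul_le_of_le_one_left (mul_nonneg (mul_nonneg hk hc0) hf) hcm.2
    linarith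
  refine (lintegral_mono hpt).trans ?_
  have hfm := (measurable_fibre_right h x).ennreal_ofReal
  rw [lintegral_add_left (hfm.const_mul _), lintegral_const_mul _ hfm, h0,
    lintegral_const_mul' _ _ ENNReal.ofReal_ne_top]
  refine (add_le_add le_rfl (mul_le_mul_right hg' _)).trans (le_of_eq ?_)
  rw [← ENNReal.ofReal_mul (mul_nonneg hk hc0), ← ENNReal.ofReal_mul hc0,
    ← ENNReal.ofReal_add (by positivity) (by positivity)]
  congr 1
  ring

lemma lintegral_conorm (h : IsCH G D) (hu : Comp {y | D o y ≤ R} u) :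
    ∫⁻ x, ENNReal.ofReal (conorm G x (cd u x)) ∂Six.volM G = ENNReal.ofReal (per G u) := by
  rw [Six.volM, lintegral_withDensity_eq_lintegral_mul _ h.continuous_dens.measurable.ennreal_ofReal
      (h.continuous_conorm_cd hu.1).measurable.ennreal_ofReal, per,
    ofReal_integral_eq_lintegral_ofReal
      (by simpa using h.integrable_mul_conorm (h.proper o R) hu (continuous_const (y := (1 : ℝ))))
      (Eventually.of_forall fun y => mul_nonneg (conorm_nonneg _ _) (h.dens_pos y).le)]
  exact lintegral_congr fun y => by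
    simp only [Pi.mul_apply]; rw [← ENNReal.ofReal_mul (h.dens_pos y).le, mul_comm]

/-- The negative terms over the whole phase space. -/
theorem lintegral_weight_le [NeZero n] (hn : 2 ≤ n) (hmom : MomentPin n) (h : IsCH G D)
    (hu : Comp {y | D o y ≤ R} u) {a : ℝ → ℝ} {B : ℝ} (ha : Measurable a)
    (ha0 : ∀ c ∈ Icc (0 : ℝ) 1, a c ≤ 0) (haB : ∀ c ∈ Icc (0 : ℝ) 1, -B ≤ a c)
    {k σ : ℝ} (hk : 0 ≤ k) (hσ : σ = 1 ∨ σ = -1) :
    ∫⁻ p, ENNReal.ofReal (σ * slp u p) * pairW G u a k p ∂Six.liou G ≤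
      ENNReal.ofReal (mass n * (k + cmean n fun c => -a c) * per G u) := by
  rw [lintegral_phase h (K := fun p => ENNReal.ofReal (σ * slp u p) * pairW G u a k p)
    (((continuous_slp hu.1).const_mul σ).measurable.ennreal_ofReal.mul
      (measurable_pairW h hu.1 ha k))]
  have hM := (hmom hn).1
  have hE : 0 ≤ cmean n fun c => -a c := cmean_nonneg hM fun c hc => by linarith [ha0 c hc]
  calc _ ≤ ∫⁻ x, ENNReal.ofReal (mass n * (k + cmean n fun c => -a c)) *
        ENNReal.ofReal (conorm G x (cd u x)) ∂Six.volM G := ?_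
    _ = _ := by
      rw [lintegral_const_mul _ (h.continuous_conorm_cd hu.1).measurable.ennreal_ofReal,
        lintegral_conorm h hu, ← ENNReal.ofReal_mul (by positivity)]
  refine lintegral_mono fun x => ?_
  have hb := fibre_weight_le hn hmom h ha ha0 haB x (σ • cd u x) hk
  have hσ1 : |σ| = 1 := by rcases hσ with rfl | rfl <;> simp
  rw [h.conorm_smul, hσ1, one_mul] at hb
  rw [← ENNReal.ofReal_mul (by positivity)]
  refine le_trans (le_of_eq (lintegral_congr fun v => ?_)) hb
  simp only [pairW, smul_dotProduct, smul_eq_mul, cosv, slp, abs_mul, hσ1, one_mul]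

/-- The entries: the marginal of a pairing is at most one. -/
theorem lintegral_entries_le [NeZero n] (hn : 2 ≤ n) (hline : Six.LinePin)
    (hflow : Six.FlowPin n) (hmom : MomentPin n) (h : IsCH G D) (he : Six.IsExp G D e)
    (hu : Comp {y | D o y ≤ R} u) {a : ℝ → ℝ} {B : ℝ} (ha : Measurable a)
    (ha0 : ∀ c ∈ Icc (0 : ℝ) 1, a c ≤ 0) (haB : ∀ c ∈ Icc (0 : ℝ) 1, -B ≤ a c)
    (hη : 0 < η) (hη2 : η < 1 / 2) {k : ℝ} (hk : 0 ≤ k) :
    ∫⁻ p, (∫⁻ t in Ioi (0 : ℝ), pairA e u η (p, t) * pairW G u a k p) ∂Six.liou G ≤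
      ENNReal.ofReal (mass n * (k + cmean n fun c => -a c) * per G u) := by
  refine le_trans (lintegral_mono_ae ((Six.ae_snd_ne_zero (by omega)).mono fun p hp => ?_))
    (lintegral_weight_le hn hmom h hu ha ha0 haB hk (Or.inl rfl))
  rw [one_mul]
  have hne : ENNReal.ofReal (slp u p) * pairW G u a k p ≠ ∞ :=
    ENNReal.mul_ne_top ENNReal.ofReal_ne_top ENNReal.ofReal_ne_top
  calc ∫⁻ t in Ioi (0 : ℝ), pairA e u η (p, t) * pairW G u a k p ≤ ∫⁻ t in Ioi (0 : ℝ),
        ENNReal.ofReal (slp u p) * pairW G u a k p *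
          {t | Six.Paired η (gl e u p) 0 (0 + t)}.indicator
          (fun t => ENNReal.ofReal (-deriv (gl e u p) (0 + t))) t := by
        refine setLIntegral_mono' measurableSet_Ioi fun t ht => le_of_eq ?_
        by_cases hz : Six.Paired η (gl e u p) 0 t
        · rw [pairA, Set.indicator_of_mem (show (p, t) ∈
              {z : Six.Phase n × ℝ | 0 < z.2 ∧ Six.Paired η (gl e u z.1) 0 z.2} from ⟨ht, hz⟩),
            Set.indicator_of_mem (show t ∈ {t | Six.Paired η (gl e u p) 0 (0 + t)} by simpa using hz),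
            deriv_gl hflow h he hu.1, zero_add]
          ring
        · rw [pairA, Set.indicator_of_notMem (show (p, t) ∉
              {z : Six.Phase n × ℝ | 0 < z.2 ∧ Six.Paired η (gl e u z.1) 0 z.2} from fun hc => hz hc.2),
            Set.indicator_of_notMem (show t ∉ {t | Six.Paired η (gl e u p) 0 (0 + t)} by simpa using hz)]
          simp
    _ ≤ ENNReal.ofReal (slp u p) * pairW G u a k p * 1 := by
        rw [lintegral_const_mul' _ _ hne]
        exact mul_le_mul_right ((hline _ (contDiff_gl he hu.1 p)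
          (hasCompactSupport_gl hflow h he hu p hp) (fun t => hu.2.2 _) η hη hη2).1 0) _
    _ = _ := mul_one _

/-- The exits, moved to the start by the flow. -/
theorem lintegral_exits_le [NeZero n] (hn : 2 ≤ n) (hline : Six.LinePin)
    (hflow : Six.FlowPin n) (hmom : MomentPin n) (h : IsCH G D) (he : Six.IsExp G D e)
    (hu : Comp {y | D o y ≤ R} u) {a : ℝ → ℝ} {B : ℝ} (ha : Measurable a)
    (ha0 : ∀ c ∈ Icc (0 : ℝ) 1, a c ≤ 0) (haB : ∀ c ∈ Icc (0 : ℝ) 1, -B ≤ a c)
    (hη : 0 < η) (hη2 : η < 1 / 2) {k : ℝ} (hk : 0 ≤ k) :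
    ∫⁻ p, (∫⁻ t in Ioi (0 : ℝ), pairA e u η (p, t) * pairW G u a k (Six.flow e t p)) ∂Six.liou G ≤
      ENNReal.ofReal (mass n * (k + cmean n fun c => -a c) * per G u) := by
  obtain ⟨-, -, hzero, -, hcomp, -, -, -, -, hcont, -, hmp⟩ := hflow G D e h he
  have hs := continuous_slp hu.1
  set S' : Set (Six.Phase n × ℝ) := {z | -z.2 < 0 ∧ Six.Paired η (gl e u z.1) (-z.2) 0}
  have hS' : MeasurableSet S' := Six.measurableSet_paired η
    (F := fun z : Six.Phase n × ℝ => gl e u z.1)
    ((continuous_gl he hu.1).comp ((continuous_fst.comp continuous_fst).prodMk continuous_snd))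
    continuous_snd.neg continuous_const
  set L : Six.Phase n × ℝ → ℝ≥0∞ := S'.indicator fun z =>
    ENNReal.ofReal (slp u (Six.flow e (-z.2) z.1)) * ENNReal.ofReal (-slp u z.1) *
      pairW G u a k z.1
  have hL : Measurable L := ((((hs.comp (hcont.comp
    (continuous_snd.neg.prodMk continuous_fst))).measurable.ennreal_ofReal).mul
    (hs.comp continuous_fst).neg.measurable.ennreal_ofReal).mul
      ((measurable_pairW h hu.1 ha k).comp measurable_fst)).indicator hS'
  have heq : ∀ p t, pairA e u η (p, t) * pairW G u a k (Six.flow e t p) = L (Six.flow e t p, t) := by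
    intro p t
    have hiff : 0 < t ∧ Six.Paired η (gl e u p) 0 t ↔ (Six.flow e t p, t) ∈ S' := by
      simp only [S', mem_setOf_eq, gl_flow hflow h he, Six.paired_shift, add_neg_cancel, add_zero,
        neg_lt_zero]
    by_cases hz : 0 < t ∧ Six.Paired η (gl e u p) 0 t
    · rw [pairA, Set.indicator_of_mem (show (p, t) ∈
        {z : Six.Phase n × ℝ | 0 < z.2 ∧ Six.Paired η (gl e u z.1) 0 z.2} from hz)]
      simp only [L, Set.indicator_of_mem (hiff.1 hz), hcomp, add_neg_cancel, hzero]
    · rw [pairA, Set.indicator_of_notMem (show (p, t) ∉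
        {z : Six.Phase n × ℝ | 0 < z.2 ∧ Six.Paired η (gl e u z.1) 0 z.2} from hz)]
      simp only [L, Set.indicator_of_notMem (mt hiff.2 hz), zero_mul]
  simp only [heq]
  have hLf : Measurable fun z : Six.Phase n × ℝ => L (Six.flow e z.2 z.1, z.2) :=
    hL.comp (((hcont.comp (continuous_snd.prodMk continuous_fst)).measurable).prodMk measurable_snd)
  rw [lintegral_lintegral_swap hLf.aemeasurable]
  simp only [fun t => (hmp t).lintegral_comp (f := fun q => L (q, t)) (hL.comp measurable_prodMk_right)]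
  rw [← lintegral_lintegral_swap (f := fun q t => L (q, t)) hL.aemeasurable]
  refine le_trans (lintegral_mono_ae ((Six.ae_snd_ne_zero (by omega)).mono fun q hq => ?_))
    (lintegral_weight_le hn hmom h hu ha ha0 haB hk (Or.inr rfl))
  rw [neg_one_mul]
  have hne : ENNReal.ofReal (-slp u q) * pairW G u a k q ≠ ∞ :=
    ENNReal.mul_ne_top ENNReal.ofReal_ne_top ENNReal.ofReal_ne_top
  calc ∫⁻ t in Ioi (0 : ℝ), L (q, t) ≤ ∫⁻ t in Ioi (0 : ℝ),
        ENNReal.ofReal (-slp u q) * pairW G u a k q *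
          {t | Six.Paired η (gl e u q) (0 - t) 0}.indicator
          (fun t => ENNReal.ofReal (deriv (gl e u q) (0 - t))) t := by
        refine setLIntegral_mono' measurableSet_Ioi fun t ht => le_of_eq ?_
        by_cases hz : Six.Paired η (gl e u q) (-t) 0
        · rw [Set.indicator_of_mem (show t ∈ {t | Six.Paired η (gl e u q) (0 - t) 0} by simpa using hz),
            deriv_gl hflow h he hu.1, zero_sub]
          simp only [L, Set.indicator_of_mem (show (q, t) ∈ S' from ⟨by simpa using ht, hz⟩)]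
          ring
        · rw [Set.indicator_of_notMem (show t ∉ {t | Six.Paired η (gl e u q) (0 - t) 0} by simpa using hz)]
          simp only [L, Set.indicator_of_notMem (show (q, t) ∉ S' from fun hc => hz hc.2), mul_zero]
    _ ≤ ENNReal.ofReal (-slp u q) * pairW G u a k q * 1 := by
        rw [lintegral_const_mul' _ _ hne]
        exact mul_le_mul_right ((hline _ (contDiff_gl he hu.1 q)
          (hasCompactSupport_gl hflow h he hu q hq) (fun t => hu.2.2 _) η hη hη2).2.1 0) _
    _ = _ := mul_one _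

/-- The positive term on one phase point. -/
def pairH (e : Six.Phase n → Fin n → ℝ) (u : (Fin n → ℝ) → ℝ) (η : ℝ) (p : Six.Phase n) : ℝ≥0∞ :=
  ∫⁻ t in Ioi (0 : ℝ), pairA e u η (p, t) * ENNReal.ofReal t

lemma measurable_pairH (hflow : Six.FlowPin n) (h : IsCH G D) (he : Six.IsExp G D e)
    (hu : ContDiff ℝ 1 u) : Measurable (pairH e u η) :=
  Measurable.lintegral_prod_right'
    (f := fun z : Six.Phase n × ℝ => pairA e u η z * ENNReal.ofReal z.2)
    ((measurable_pairA hflow h he hu).mul measurable_snd.ennreal_ofReal)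

/-- Santalo: the positive term carries the volume where `u` is nearly one. -/
theorem le_lintegral_pairH [NeZero n] (hn : 2 ≤ n) (hline : Six.LinePin)
    (hflow : Six.FlowPin n) (hmom : MomentPin n) (h : IsCH G D) (he : Six.IsExp G D e)
    (hu : Comp {y | D o y ≤ R} u) (hη : 0 < η) (hη2 : η < 1 / 2) :
    ENNReal.ofReal ((1 - 2 * η) ^ 2 * mass n * (vol G u - gap G u / η)) ≤
      ∫⁻ p, pairH e u η p ∂Six.liou G := by
  obtain ⟨-, -, -, -, hcomp, -, -, -, -, -, -, -⟩ := hflow G D e h he
  obtain ⟨hM, -, hG⟩ := hmom hn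
  have hK := h.proper o R
  set O : Set (Fin n → ℝ) := {x | 1 - η < u x}
  have hO : IsOpen O := isOpen_lt continuous_const hu.1.continuous
  set F : Six.Phase n → ℝ≥0∞ := fun p => ENNReal.ofReal ((1 - 2 * η) ^ 2) * O.indicator 1 p.1
  have hFm : Measurable F :=
    ((measurable_one.indicator hO.measurableSet).comp measurable_fst).const_mul _
  have hout : ∀ p : Six.Phase n, R < D o p.1 → u p.1 = 0 ∧ slp u p = 0 := fun p hp => by
    have hn' : p.1 ∉ tsupport u := fun hc => (not_le.2 hp) (hu.2.1 hc)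
    exact ⟨image_eq_zero_of_notMem_tsupport hn', by simp [slp, cd_eq_zero_of_notMem hn']⟩
  have hFH : ∫⁻ p, F p ∂Six.liou G ≤ ∫⁻ p, pairH e u η p ∂Six.liou G := by
    refine Six.lintegral_le_of_lines (by omega) h he hflow o R hFm
      (measurable_pairH hflow h he hu.1) (fun p hp => ?_) (fun p hp => ?_) fun p hp => ?_
    · have hn' : p.1 ∉ O := fun hc => by
        have := (hout p hp).1; simp only [O, mem_setOf_eq] at hc; linarith
      simp [F, Set.indicator_of_notMem hn']
    · have : ∀ t, pairA e u η (p, t) = 0 := fun t => by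
        unfold pairA
        refine Set.indicator_apply_eq_zero.2 fun _ => ?_
        simp [(hout p hp).2]
      simp [pairH, this]
    have e1 : ∫⁻ t, F (Six.flow e t p) =
        ENNReal.ofReal ((1 - 2 * η) ^ 2) * volume {t | 1 - η < gl e u p t} := by
      have hm : MeasurableSet {t | 1 - η < gl e u p t} :=
        (isOpen_lt continuous_const (contDiff_gl he hu.1 p).continuous).measurableSet
      rw [← lintegral_indicator_one hm, ← lintegral_const_mul' _ _ ENNReal.ofReal_ne_top]
      rfl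
    rw [e1]
    refine ((hline _ (contDiff_gl he hu.1 p) (hasCompactSupport_gl hflow h he hu p hp)
      (fun t => hu.2.2 _) η hη hη2).2.2).trans (lintegral_mono fun a => ?_)
    refine setLIntegral_mono' measurableSet_Ioi fun t ht => le_of_eq ?_
    have hiff : Six.Paired η (gl e u (Six.flow e a p)) 0 t ↔
        Six.Paired η (gl e u p) a (a + t) := by
      rw [gl_flow hflow h he, Six.paired_shift, add_zero]
    by_cases hz : Six.Paired η (gl e u p) a (a + t)
    · rw [Set.indicator_of_mem (show t ∈ {s | Six.Paired η (gl e u p) a (a + s)} from hz), pairA,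
        Set.indicator_of_mem (show (Six.flow e a p, t) ∈
          {z : Six.Phase n × ℝ | 0 < z.2 ∧ Six.Paired η (gl e u z.1) 0 z.2} from ⟨ht, hiff.2 hz⟩)]
      simp only [deriv_gl hflow h he hu.1, hcomp]
    · rw [Set.indicator_of_notMem (show t ∉ {s | Six.Paired η (gl e u p) a (a + s)} from hz), pairA,
        Set.indicator_of_notMem (show (Six.flow e a p, t) ∉
          {z : Six.Phase n × ℝ | 0 < z.2 ∧ Six.Paired η (gl e u z.1) 0 z.2} from fun hc => hz (hiff.1 hc.2))]
      simp
  refine le_trans ?_ hFH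
  have hsub : O ⊆ {y | D o y ≤ R} := fun x hx => hu.2.1 (subset_tsupport _ (by
    simp only [O, mem_setOf_eq] at hx; simp only [Function.mem_support]; linarith))
  have hint : Integrable (O.indicator (dens G)) :=
    ((h.continuous_dens.continuousOn.integrableOn_compact hK).mono_set hsub).integrable_indicator
      hO.measurableSet
  have hV : vol G u - gap G u / η ≤ ∫ x, O.indicator (dens G) x := by
    have h1 : Integrable fun y => u y * dens G y := hu.integrable hK h.continuous_dens
    have h2 : Integrable fun y => u y * (1 - u y) * dens G y :=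
      (hu.integrable hK (((continuous_const (y := (1 : ℝ))).sub hu.1.continuous).mul h.continuous_dens)).congr
        (Eventually.of_forall fun y => by simp only [Pi.mul_apply, Pi.sub_apply]; ring)
    rw [vol, gap, ← integral_div, ← integral_sub h1 (h2.div_const η)]
    refine integral_mono (h1.sub (h2.div_const η)) hint fun y => ?_
    have h01 := hu.2.2 y
    have hd := (h.dens_pos y).le
    by_cases hy : y ∈ O
    · rw [Set.indicator_of_mem hy]
      have : 0 ≤ u y * (1 - u y) * dens G y / η :=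
        div_nonneg (mul_nonneg (mul_nonneg h01.1 (sub_nonneg.2 h01.2)) hd) hη.le
      have := mul_le_of_le_one_left hd h01.2
      linarith
    · rw [Set.indicator_of_notMem hy]
      simp only [O, mem_setOf_eq, not_lt] at hy
      rw [sub_nonpos, le_div_iff₀ hη]
      nlinarith [mul_nonneg h01.1 hd]
  have hnn : ∀ x, 0 ≤ O.indicator (dens G) x :=
    fun x => Set.indicator_nonneg (fun y _ => (h.dens_pos y).le) x
  have hc0 : 0 ≤ (1 - 2 * η) ^ 2 * mass n := by positivity
  refine le_trans (ENNReal.ofReal_le_ofReal (mul_le_mul_of_nonneg_left hV hc0)) (le_of_eq ?_)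
  rw [ENNReal.ofReal_mul hc0, ofReal_integral_eq_lintegral_ofReal hint (Eventually.of_forall hnn),
    lintegral_phase h hFm, Six.volM,
    lintegral_withDensity_eq_lintegral_mul₀' h.continuous_dens.measurable.ennreal_ofReal.aemeasurable,
    ← lintegral_const_mul' _ _ ENNReal.ofReal_ne_top]
  · refine lintegral_congr fun x => ?_
    simp only [Pi.mul_apply, F]
    rw [lintegral_mul_const' _ _ (by
      by_cases hx : x ∈ O <;> simp [hx]), (hG G x 0 (h.posDef x)).1]
    by_cases hx : x ∈ O
    · simp only [Set.indicator_of_mem hx, Pi.one_apply, mul_one]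
      rw [ENNReal.ofReal_mul (sq_nonneg _)]
      ring
    · simp [Set.indicator_of_notMem hx]
  · exact (Measurable.lintegral_prod_right' (f := fun p : Six.Phase n =>
      ENNReal.ofReal (Six.fibre G p.1 p.2) * F p)
      ((measurable_fibre h).ennreal_ofReal.mul hFm)).aemeasurable

end Vale.Agent.P219.CH.Gen
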