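import Vale.Agent.P219.Gen.AssemblyRows
import Vale.Agent.P219.Gen.PairWeights
import Vale.Agent.P219.Six.Exists

/-!
# The sharp inequality from a certificate, any dimension
-/

noncomputable section

open MeasureTheory Set Filter Topology Matrix
open scoped ENNReal

namespace Vale.Agent.P219.CH.Gen

/-- The closing inequality, with the errors collected. -/
lemma no_almost_minimiser {k : ℕ} {N ω Rd M b l θ ρ V W P s η g ε κ I : ℝ} (hN : 0 < N)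
    (hω : 0 < ω) (hRd : 0 < Rd) (hM : M = N * ω * Rd) (hl : 0 < l) (hθ1 : 1 ≤ θ)
    (hb : 0 ≤ b) (hE : 0 ≤ b / N - 1) (hρ : ρ = l ^ (k + 1) / (N ^ (k + 1) * ω))
    (hV : 0 ≤ V) (hη : 0 < η) (hη2 : η ≤ 1) (hg : 0 ≤ g) (hP0 : 0 ≤ P) (hs : 0 ≤ s)
    (hP : P ≤ l * W) (hsV : s * V = l * θ / N * W) (hsk : s ^ k * W = (l * θ / N) ^ k)
    (hpair : M * (2 * b * s * ((1 - 2 * η) ^ 2 * (V - g / η)) - (2 * (b / N - 1) + ε) * P) ≤
      Rd * s ^ k * I)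
    (hI : I ≤ (2 + ε) * P ^ 2 + 2 * (κ * P)) :
    2 * M * l * W * (1 - ρ * θ ^ k) ≤ 8 * M * b * s * η * V + 2 * M * b * s * g / η +
      ε * (M * P + Rd * s ^ k * P ^ 2) + 2 * κ * (Rd * s ^ k * P) := by
  have hM0 : 0 < M := by rw [hM]; positivity
  have hW : 0 ≤ l * W := hP0.trans hP
  have hP2 : Rd * s ^ k * P ^ 2 ≤ M * ρ * θ ^ k * (l * W) := by
    calc Rd * s ^ k * P ^ 2 ≤ Rd * s ^ k * (l * W) ^ 2 := by gcongr
      _ = Rd * (s ^ k * W) * l * (l * W) := by ring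
      _ = _ := by rw [hsk, hM, hρ, div_pow, mul_pow, pow_succ, pow_succ]; field_simp
  have h3 : V - 4 * η * V - g / η ≤ (1 - 2 * η) ^ 2 * (V - g / η) := by
    nlinarith [mul_nonneg (mul_nonneg hη.le hη.le) hV,
      mul_nonneg (mul_nonneg hη.le (sub_nonneg.2 hη2)) (div_nonneg hg hη.le)]
  have h4 := mul_le_mul_of_nonneg_left h3 (by positivity : 0 ≤ 2 * M * b * s)
  have h5 : 2 * M * (b / N) * (l * W) ≤ 2 * M * b * (s * V) := by
    rw [hsV]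
    have : 0 ≤ 2 * M * (b / N) * (l * W) * (θ - 1) :=
      mul_nonneg (mul_nonneg (by positivity) hW) (sub_nonneg.2 hθ1)
    have e : 2 * M * b * (l * θ / N * W) = 2 * M * (b / N) * (l * W) * θ := by ring
    linarith
  have h6 := mul_le_mul_of_nonneg_left hP (by positivity : 0 ≤ 2 * M * (b / N - 1))
  have h7 := mul_le_mul_of_nonneg_left hI (by positivity : 0 ≤ Rd * s ^ k)
  ring_nf at h4 h5 h6 h7 hpair hP2 ⊢
  linarith

/-- The assembly. -/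
theorem assembly (n : ℕ) [NeZero n] : AssemblyPin n := by
  intro hn hMin hRow hmom hPair a b hcert G D h Ω A hΩ hΩb hA
  by_contra hlt
  rw [not_le] at hlt
  have hn2 : 2 ≤ n := by omega
  obtain ⟨k, rfl⟩ : ∃ k, n = k + 1 := ⟨n - 1, by omega⟩
  obtain ⟨e, he⟩ := Six.exists_isExp h
  obtain ⟨hM, hMrad, -⟩ := hmom hn2
  obtain ⟨N, hN⟩ : ∃ N : ℝ, N = ((k + 1 : ℕ) : ℝ) := ⟨_, rfl⟩
  have hN0 : 0 < N := by rw [hN]; positivity
  have hNk : N - 1 = (k : ℝ) := by rw [hN]; push_cast; ring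
  obtain ⟨ω, hω⟩ : ∃ ω : ℝ, ω = Bend.unitBall (k + 1) := ⟨_, rfl⟩
  obtain ⟨Rd, hRd⟩ : ∃ Rd : ℝ, Rd = radial (k + 1) := ⟨_, rfl⟩
  obtain ⟨M, hMd⟩ : ∃ M : ℝ, M = mass (k + 1) := ⟨_, rfl⟩
  rw [← hMd, ← hω, ← hRd, ← hN] at hMrad
  have hRd0 : 0 < Rd := by
    refine lt_of_le_of_ne (hRd ▸ setIntegral_nonneg measurableSet_Ioi fun r hr =>
      mul_nonneg (pow_nonneg (le_of_lt hr) _) (Real.exp_pos _).le) fun h0 => ?_
    rw [← h0, mul_zero] at hMrad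
    linarith [hMd ▸ hM]
  have hω0 : 0 < ω := by
    refine lt_of_le_of_ne (hω ▸ ENNReal.toReal_nonneg) fun h0 => ?_
    rw [← h0, mul_zero, zero_mul] at hMrad
    linarith [hMd ▸ hM]
  have hM0 : 0 < M := hMd ▸ hM
  have hE : 0 ≤ b / N - 1 := by
    rw [hN, ← hcert.value]
    exact cmean_nonneg hM fun c hc => by linarith [hcert.a_nonpos c hc]
  have hb := hcert.b_nonneg
  rw [← hω, ← hN] at hlt
  obtain ⟨L, hL⟩ : ∃ L : ℝ, L = N * ω ^ (1 / N : ℝ) := ⟨_, rfl⟩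
  rw [← hL] at hlt
  have hLpow : L ^ (k + 1) = N ^ (k + 1) * ω := by
    rw [hL, mul_pow, one_div, hN, Real.rpow_inv_natCast_pow hω0.le (by omega)]
  have hA0 : 0 ≤ A := by
    obtain ⟨S, v, -, -, -, hA'⟩ := hA
    exact le_trans (h.per_nonneg (v 0)) (hA' 0)
  obtain ⟨X, hX⟩ : ∃ X : ℝ, X = volG G Ω ^ ((N - 1) / N) := ⟨_, rfl⟩
  rw [← hX] at hlt
  have hL0 : 0 < L := by rw [hL]; positivity
  have hX0 : 0 < X := by
    by_contra hX0
    rw [not_lt] at hX0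
    linarith [mul_nonpos_of_nonneg_of_nonpos hL0.le hX0]
  obtain ⟨l, hl1, hl2⟩ := exists_between ((div_lt_iff₀ hX0).2 hlt)
  have hl : 0 < l := lt_of_le_of_lt (div_nonneg hA0 hX0.le) hl1
  obtain ⟨R, M', P₀, v₀, hR, hM', hP₀, hv₀, hmin⟩ := hMin hn2 G D h Ω A l hΩ hΩb hA hl
    (by rw [← hN, ← hX]; exact (div_lt_iff₀ hX0).1 hl1) 0
  obtain ⟨ρ, hρ⟩ : ∃ ρ : ℝ, ρ = l ^ (k + 1) / (N ^ (k + 1) * ω) := ⟨_, rfl⟩
  have hρ0 : 0 < ρ := by rw [hρ]; positivity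
  have hρ1 : ρ < 1 := by
    rw [hρ, div_lt_one (by positivity), ← hLpow]
    exact pow_lt_pow_left₀ hl2 hl.le (by omega)
  obtain ⟨θ, hθk, hθ1⟩ : ∃ θ : ℝ, ρ * θ ^ k < 1 ∧ 1 < θ := by
    have hc : Continuous fun t : ℝ => ρ * t ^ k := continuous_const.mul (continuous_pow k)
    have h1 : ∀ᶠ t in 𝓝 (1 : ℝ), ρ * t ^ k < 1 :=
      hc.continuousAt.eventually_lt continuousAt_const (by simpa using hρ1)
    exact ((h1.filter_mono nhdsWithin_le_nhds).and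
      (self_mem_nhdsWithin : ∀ᶠ t in 𝓝[>] (1 : ℝ), t ∈ Ioi (1 : ℝ))).exists
  have hK := h.proper 0 R
  obtain ⟨VK, hVK⟩ : ∃ VK, VK = volG G {y | D 0 y ≤ R} := ⟨_, rfl⟩
  have hvK : v₀ ≤ VK := by
    obtain ⟨u, hu, -, hv, -⟩ := hmin 1 one_pos
    exact hVK ▸ hv.trans (h.vol_le hK hu)
  obtain ⟨sOf, hsOf⟩ : ∃ f : ℝ → ℝ, f = fun V => l * θ / N * V ^ (-(1 / N)) := ⟨_, rfl⟩
  have hsmono : ∀ {V V' : ℝ}, 0 < V → V ≤ V' → sOf V' ≤ sOf V := fun hV hVV => by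
    rw [hsOf]
    exact mul_le_mul_of_nonneg_left (Real.rpow_le_rpow_of_nonpos hV hVV (by
      rw [neg_nonpos]; positivity)) (by positivity)
  obtain ⟨S, hS⟩ : ∃ S : ℝ, S = sOf v₀ := ⟨_, rfl⟩
  have hspos : ∀ {V : ℝ}, 0 < V → 0 < sOf V := fun hV => by rw [hsOf]; positivity
  have hS0 : 0 < S := hS ▸ hspos hv₀
  obtain ⟨τ, hτ⟩ : ∃ τ : ℝ, τ = 2 * M * l * v₀ ^ ((N - 1) / N) * (1 - ρ * θ ^ k) := ⟨_, rfl⟩
  have hτ0 : 0 < τ := by
    rw [hτ]; have : 0 < 1 - ρ * θ ^ k := sub_pos.2 hθk; positivity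
  obtain ⟨B, hB⟩ := (hK.prod hK).bddAbove_image h.continuous_D.continuousOn
  obtain ⟨T, hT⟩ : ∃ T : ℝ, T = S * Real.sqrt (2 * max B 0) + 1 := ⟨_, rfl⟩
  have hT0 : 0 < T := by rw [hT]; positivity
  obtain ⟨C, hC⟩ : ∃ C : ℝ, C = M * P₀ + Rd * S ^ k * P₀ ^ 2 + 1 := ⟨_, rfl⟩
  have hC0 : 0 < C := by rw [hC]; positivity
  obtain ⟨ε, hε⟩ : ∃ ε : ℝ, ε = τ / (5 * C) := ⟨_, rfl⟩
  have hε0 : 0 < ε := by rw [hε]; positivity
  obtain ⟨w, hw, hwpos, hwP, hwF⟩ := hcert.weight ε T hε0 hT0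
  obtain ⟨κ, hκ⟩ : ∃ κ : ℝ, κ = τ / (10 * (Rd * S ^ k * P₀ + 1)) := ⟨_, rfl⟩
  have hκ0 : 0 < κ := by rw [hκ]; positivity
  obtain ⟨η, hη⟩ : ∃ η : ℝ, η = min (1 / 4) (τ / (5 * (8 * M * b * S * VK + 1))) := ⟨_, rfl⟩
  have hVK0 : 0 < VK := hv₀.trans_le hvK
  have hη0 : 0 < η := hη ▸ lt_min (by norm_num) (by positivity)
  have hw' : ContDiff ℝ 1 fun z : ℝ × ℝ × ℝ => scaled w z.1 z.2 :=
    hw.comp (by fun_prop : ContDiff ℝ 1 fun z : ℝ × ℝ × ℝ => (z.1 ^ 2 * z.2.1, z.1 * z.2.2))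
  obtain ⟨δ₁, ⟨hrow, hδ₁b⟩, hδ₁⟩ :=
    (((hRow hn2 G D h 0 R P₀ v₀ l M' θ κ hR hP₀ hv₀ hl hM' hθ1 hκ0 (Icc (sOf VK) S)
      (fun s => scaled w s) isCompact_Icc hw' (fun p _ a s ha hs => hwpos _ _ (by positivity) (by
        calc (p * s) ^ 2 = p ^ 2 * s ^ 2 := mul_pow p s 2
          _ ≤ p ^ 2 * (2 * a) := by gcongr
          _ = _ := by ring))).and
        ((eventually_le_nhds (by positivity : (0 : ℝ) < τ * η / (5 * (2 * M * b * S + 1)))).filter_mono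
          nhdsWithin_le_nhds)).and
      (self_mem_nhdsWithin : ∀ᶠ d in 𝓝[>] (0 : ℝ), d ∈ Ioi (0 : ℝ))).exists
  obtain ⟨u, hu, hPu, hVu, hgu, hPV, hopt⟩ := hmin δ₁ hδ₁
  obtain ⟨V, hV⟩ : ∃ V, V = vol G u := ⟨_, rfl⟩
  have hV0 : 0 < V := hV ▸ hv₀.trans_le hVu
  obtain ⟨s, hs⟩ : ∃ s : ℝ, s = sOf V := ⟨_, rfl⟩
  have hs0 : 0 < s := hs ▸ hspos hV0
  have hsS : s ≤ S := hs ▸ hS ▸ hsmono hv₀ (hV ▸ hVu)
  have hsmem : s ∈ Icc (sOf VK) S :=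
    ⟨hs ▸ hsmono hV0 (hV ▸ hVK ▸ h.vol_le hK hu), hsS⟩
  have hcast : ((k + 1 : ℕ) : ℝ) - 1 = N - 1 := by rw [hN]
  have hh : l * ((((k + 1 : ℕ) : ℝ) - 1) / ((k + 1 : ℕ) : ℝ)) * θ *
      vol G u ^ ((((k + 1 : ℕ) : ℝ) - 1) / ((k + 1 : ℕ) : ℝ) - 1) =
      (((k + 1 : ℕ) : ℝ) - 1) * s := by
    rw [hs, hsOf, ← hV, ← hN]
    rw [show (N - 1) / N - 1 = -(1 / N) by field_simp; ring]
    ring
  have hr : ∀ x, D 0 x ≤ R → ∫ y, rowK G D u w s x y ∂Sharp.pm G u ≤ κ := fun x hx => by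
    have := (hrow u ⟨hu, hPu, hVu, hgu, hopt⟩ x (dirCov G u x) hx (conorm_dirCov_le h u x) s
      hsmem).2
    rw [hh] at this
    refine le_trans (le_of_eq (integral_congr_ae (Eventually.of_forall fun y => ?_))) this
    exact (rowK_eq h hw hs0.le u x y).symm
  have hI := pair_le_rows h (ε := ε) hw hu hs0.le hr
  have hTb : ∀ x y, D 0 x ≤ R → D 0 y ≤ R → s * Real.sqrt (2 * D x y) ≤ T := fun x y hx hy => by
    rw [hT]
    have := (hB ⟨(x, y), ⟨hx, hy⟩, rfl⟩).trans (le_max_left B 0)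
    calc s * Real.sqrt (2 * D x y) ≤ S * Real.sqrt (2 * max B 0) :=
          mul_le_mul hsS (Real.sqrt_le_sqrt (by linarith)) (Real.sqrt_nonneg _) hS0.le
      _ ≤ _ := le_add_of_nonneg_right zero_le_one
  have hp := hPair hn2 a b hcert G D e h he 0 R η s ε T w u hη0
    ((hη ▸ min_le_left _ _).trans_lt (by norm_num)) hs0 hε0 hTb hw hwP hwF hu
  rw [← hMd, ← hRd, ← hN, ← hV] at hp
  rw [← hN, ← hV] at hPV
  have hg := h.gap_nonneg (G := G) hu.2.2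
  have hP0 := h.per_nonneg u
  have hsV : s * V = l * θ / N * V ^ ((N - 1) / N) := by
    rw [hs, hsOf, mul_assoc, ← Real.rpow_add_one hV0.ne',
      show -(1 / N) + 1 = (N - 1) / N by field_simp; ring]
  have hsk : s ^ k * V ^ ((N - 1) / N) = (l * θ / N) ^ k := by
    rw [hs, hsOf, mul_pow, ← Real.rpow_natCast (V ^ (-(1 / N))) k, ← Real.rpow_mul hV0.le,
      mul_assoc, ← Real.rpow_add hV0, hNk,
      show -(1 / N) * (k : ℝ) + (k : ℝ) / N = 0 by ring, Real.rpow_zero, mul_one]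
  have key := no_almost_minimiser hN0 hω0 hRd0 hMrad hl hθ1.le hb hE hρ hV0.le hη0
    ((hη ▸ min_le_left _ _).trans (by norm_num)) hg hP0 hs0.le hPV hsV hsk hp hI
  have hlow : τ ≤ 2 * M * l * V ^ ((N - 1) / N) * (1 - ρ * θ ^ k) := by
    rw [hτ]
    refine mul_le_mul_of_nonneg_right (mul_le_mul_of_nonneg_left
      (Real.rpow_le_rpow hv₀.le (hV ▸ hVu) (div_nonneg (by linarith [k.cast_nonneg (α := ℝ)])
        hN0.le)) (by positivity)) (sub_pos.2 hθk).le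
  have hsk' : s ^ k ≤ S ^ k := pow_le_pow_left₀ hs0.le hsS k
  have h1 : 8 * M * b * s * η * V ≤ τ / 5 := by
    calc 8 * M * b * s * η * V ≤ 8 * M * b * S * η * VK := by
          gcongr; exact hV ▸ hVK ▸ h.vol_le hK hu
      _ = 8 * M * b * S * VK * η := by ring
      _ ≤ (8 * M * b * S * VK + 1) * (τ / (5 * (8 * M * b * S * VK + 1))) :=
          mul_le_mul (by linarith) (hη ▸ min_le_right _ _) hη0.le (by positivity)
      _ = τ / 5 := by field_simp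
  have h2 : 2 * M * b * s * gap G u / η ≤ τ / 5 := by
    rw [div_le_iff₀ hη0]
    calc 2 * M * b * s * gap G u
        ≤ (2 * M * b * S + 1) * (τ * η / (5 * (2 * M * b * S + 1))) := by
          refine mul_le_mul ?_ (hgu.trans hδ₁b) hg (by positivity)
          have : 2 * M * b * s ≤ 2 * M * b * S := by gcongr
          linarith
      _ = τ / 5 * η := by field_simp
  have h3 : ε * (M * per G u + Rd * s ^ k * per G u ^ 2) ≤ τ / 5 := by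
    calc ε * (M * per G u + Rd * s ^ k * per G u ^ 2)
        ≤ ε * (M * P₀ + Rd * S ^ k * P₀ ^ 2 + 1) := by
          refine mul_le_mul_of_nonneg_left ?_ hε0.le
          have : M * per G u + Rd * s ^ k * per G u ^ 2 ≤ M * P₀ + Rd * S ^ k * P₀ ^ 2 := by gcongr
          linarith
      _ = τ / 5 := by rw [← hC, hε]; field_simp
  have h4 : 2 * κ * (Rd * s ^ k * per G u) ≤ τ / 5 := by
    calc 2 * κ * (Rd * s ^ k * per G u) ≤ 2 * κ * (Rd * S ^ k * P₀ + 1) := by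
          refine mul_le_mul_of_nonneg_left ?_ (by positivity)
          have : Rd * s ^ k * per G u ≤ Rd * S ^ k * P₀ := by gcongr
          linarith
      _ = τ / 5 := by rw [hκ]; field_simp; ring
  linarith

end Vale.Agent.P219.CH.Gen
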