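import Vale.Agent.P219.Gen.PairParts
import Vale.Agent.P219.Dir.Row
import Vale.Agent.P219.Sharp.Basic

/-!
# The symmetrised kernel is the sum of two rows, any dimension
-/

noncomputable section

open MeasureTheory Set Filter Topology Matrix
open scoped ENNReal

namespace Vale.Agent.P219.CH.Gen

variable {n : ℕ} {G : (Fin n → ℝ) → Matrix (Fin n) (Fin n) ℝ}
  {D : (Fin n → ℝ) → (Fin n → ℝ) → ℝ} {u : (Fin n → ℝ) → ℝ} {w : ℝ × ℝ → ℝ}

/-- The unit covector along `du`, zero where `du` vanishes. -/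
def dirCov (G : (Fin n → ℝ) → Matrix (Fin n) (Fin n) ℝ) (u : (Fin n → ℝ) → ℝ) (x : Fin n → ℝ) :
    Fin n → ℝ :=
  (conorm G x (cd u x))⁻¹ • cd u x

lemma conorm_dirCov_le (h : IsCH G D) (u : (Fin n → ℝ) → ℝ) (x : Fin n → ℝ) :
    conorm G x (dirCov G u x) ≤ 1 := by
  rw [dirCov, h.conorm_smul, abs_inv, abs_of_nonneg (conorm_nonneg x _)]
  exact inv_mul_le_one_of_le₀ le_rfl (conorm_nonneg x _)

lemma side_dirCov (h : IsCH G D) (u : (Fin n → ℝ) → ℝ) (x y : Fin n → ℝ) :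
    Dir.side G D x (dirCov G u x) y = Dir.scos G D u y x * Real.sqrt (2 * D x y) := by
  rw [Dir.side_eq, dirCov, pairing_smul_left, Dir.scos, normalPart, Sharp.dist_symm h y x]
  rcases eq_or_ne (Real.sqrt (2 * D x y)) 0 with h0 | h0
  · have hc : conorm G x (cd (D y) x) = 0 := by
      rw [conorm, h.eikonal, Sharp.dist_symm h y x, h0]
    have h2 := h.abs_pairing_le x (cd u x) (cd (D y) x)
    rw [hc, mul_zero, abs_nonpos_iff] at h2
    simp [h0, h2]
  rcases eq_or_ne (conorm G x (cd u x)) 0 with h1 | h1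
  · simp [h1]
  field_simp

lemma fderiv_scaled (hw : ContDiff ℝ 1 w) (s : ℝ) (z v : ℝ × ℝ) :
    fderiv ℝ (scaled w s) z v = fderiv ℝ w (s ^ 2 * z.1, s * z.2) (s ^ 2 * v.1, s * v.2) := by
  obtain ⟨L, hL⟩ : ∃ L : ℝ × ℝ →L[ℝ] ℝ × ℝ, L =
      (s ^ 2 • ContinuousLinearMap.fst ℝ ℝ ℝ).prod (s • ContinuousLinearMap.snd ℝ ℝ ℝ) := ⟨_, rfl⟩
  have e : ∀ z : ℝ × ℝ, L z = (s ^ 2 * z.1, s * z.2) := fun z => by simp [hL]
  have hd : HasFDerivAt (fun z => w (L z)) ((fderiv ℝ w (L z)).comp L) z :=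
    ((hw.differentiable one_ne_zero _).hasFDerivAt).comp z L.hasFDerivAt
  have ef : scaled w s = fun z => w (L z) := funext fun z => by rw [e]; rfl
  rw [ef, hd.fderiv, ContinuousLinearMap.comp_apply, e, e]

/-- The integrand of the row of the weight at scale `s` is the kernel at rescaled arguments. -/
lemma kern_scaled (hw : ContDiff ℝ 1 w) {s : ℝ} (hs : 0 ≤ s) (h a σ d : ℝ) :
    Dir.kern n (h * s) (scaled w s) a σ d = Dir.kern n h w (s ^ 2 * a) (s * σ) d := by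
  have ea : ((s ^ 2 * 1, s * 0) : ℝ × ℝ) = s ^ 2 • ((1, 0) : ℝ × ℝ) := by simp
  have eb : ((s ^ 2 * 0, s * 1) : ℝ × ℝ) = s • ((0, 1) : ℝ × ℝ) := by simp
  have e1 : Dir.wa (scaled w s) (a, σ) = s ^ 2 * Dir.wa w (s ^ 2 * a, s * σ) := by
    simp only [Dir.wa, fderiv_scaled hw]
    rw [ea, map_smul, smul_eq_mul]
  have e2 : Dir.wb (scaled w s) (a, σ) = s * Dir.wb w (s ^ 2 * a, s * σ) := by
    simp only [Dir.wb, fderiv_scaled hw]
    rw [eb, map_smul, smul_eq_mul]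
  have e3 : Real.sqrt (2 * (s ^ 2 * a) - (s * σ) ^ 2) = s * Real.sqrt (2 * a - σ ^ 2) := by
    rw [show 2 * (s ^ 2 * a) - (s * σ) ^ 2 = s ^ 2 * (2 * a - σ ^ 2) by ring,
      Real.sqrt_mul (sq_nonneg s), Real.sqrt_sq hs]
  have e4 : Real.sqrt (2 * (s ^ 2 * a)) = s * Real.sqrt (2 * a) := by
    rw [show 2 * (s ^ 2 * a) = s ^ 2 * (2 * a) by ring, Real.sqrt_mul (sq_nonneg s),
      Real.sqrt_sq hs]
  simp only [Dir.kern, e1, e2, e3, e4, abs_mul, abs_of_nonneg hs, scaled]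
  ring

/-- The integrand of the row at scale `s` from the centre `x` along `du`, at `y`. -/
def rowK (G : (Fin n → ℝ) → Matrix (Fin n) (Fin n) ℝ) (D : (Fin n → ℝ) → (Fin n → ℝ) → ℝ)
    (u : (Fin n → ℝ) → ℝ) (w : ℝ × ℝ → ℝ) (s : ℝ) (x y : Fin n → ℝ) : ℝ :=
  Dir.kern n ((n : ℝ) - 1) w (s ^ 2 * D x y)
    (s * (Dir.scos G D u y x * Real.sqrt (2 * D x y))) (Dir.scos G D u x y)

lemma pairSym_eq (h : IsCH G D) (u : (Fin n → ℝ) → ℝ) (w : ℝ × ℝ → ℝ) (s : ℝ) (x y : Fin n → ℝ) :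
    pairSym G D u w s x y = 2 + rowK G D u w s x y + rowK G D u w s y x := by
  have e : (s * Real.sqrt (2 * D x y)) ^ 2 / 2 = s ^ 2 * D x y := by
    rw [mul_pow, Real.sq_sqrt (by linarith [h.dist_nonneg x y])]; ring
  simp only [pairSym, sym, rowK, e, Sharp.dist_symm h y x]
  ring_nf

lemma rowK_eq (h : IsCH G D) (hw : ContDiff ℝ 1 w) {s : ℝ} (hs : 0 ≤ s) (u : (Fin n → ℝ) → ℝ)
    (x y : Fin n → ℝ) :
    Dir.kern n (((n : ℝ) - 1) * s) (scaled w s) (D x y) (Dir.side G D x (dirCov G u x) y)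
      (Dir.scos G D u x y) = rowK G D u w s x y := by
  rw [kern_scaled hw hs, side_dirCov h, rowK]

lemma continuous_kern (hw : ContDiff ℝ 1 w) (c : ℝ) :
    Continuous fun q : ℝ × ℝ × ℝ => Dir.kern n c w q.1 q.2.1 q.2.2 := by
  have hd : ∀ v : ℝ × ℝ, Continuous fun q : ℝ × ℝ × ℝ => fderiv ℝ w (q.1, q.2.1) v :=
    fun v => ((hw.continuous_fderiv one_ne_zero).comp
      (continuous_fst.prodMk (continuous_fst.comp continuous_snd))).clm_apply continuous_const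
  have w1 : Continuous fun q : ℝ × ℝ × ℝ => w (q.1, q.2.1) :=
    hw.continuous.comp (continuous_fst.prodMk (continuous_fst.comp continuous_snd))
  have a1 := hd (1, 0)
  have b1 := hd (0, 1)
  unfold Dir.kern Dir.wa Dir.wb
  fun_prop

/-- The pair integral is at most twice the square of the perimeter plus the rows. -/
theorem pair_le_rows (h : IsCH G D) {o : Fin n → ℝ} {R s ε κ : ℝ} (hw : ContDiff ℝ 1 w)
    (hu : Comp {y | D o y ≤ R} u) (hs : 0 ≤ s)
    (hrow : ∀ x, D o x ≤ R → ∫ y, rowK G D u w s x y ∂Sharp.pm G u ≤ κ) :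
    ∫ x, (∫ y, (pairSym G D u w s x y + ε) * (conorm G y (cd u y) * dens G y)) *
        (conorm G x (cd u x) * dens G x) ≤
      (2 + ε) * per G u ^ 2 + 2 * (κ * per G u) := by
  have hK := h.proper o R
  have := Sharp.isFiniteMeasure_pm h hK hu
  obtain ⟨μ, hμ⟩ : ∃ μ, μ = Sharp.pm G u := ⟨_, rfl⟩
  have : IsFiniteMeasure μ := hμ ▸ this
  have hν : ∀ᵐ y ∂μ, y ∈ {y | D o y ≤ R} := hμ ▸ Sharp.ae_mem_pm h hK hu
  obtain ⟨B, hB⟩ := (hK.prod hK).bddAbove_image h.continuous_D.continuousOn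
  obtain ⟨B', hB'⟩ : ∃ B', B' = max B 0 := ⟨_, rfl⟩
  obtain ⟨S, hS⟩ : ∃ S, S = s * Real.sqrt (2 * B') := ⟨_, rfl⟩
  obtain ⟨C, hC⟩ := ((isCompact_Icc (a := (0 : ℝ)) (b := s ^ 2 * B')).prod
    ((isCompact_Icc (a := -S) (b := S)).prod
      (isCompact_Icc (a := (-1 : ℝ)) (b := 1)))).exists_bound_of_continuousOn
      (continuous_kern (n := n) hw ((n : ℝ) - 1)).continuousOn
  obtain ⟨F, hF⟩ : ∃ F : (Fin n → ℝ) × (Fin n → ℝ) → ℝ,
      F = fun z => rowK G D u w s z.1 z.2 := ⟨_, rfl⟩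
  have hd := measurable_scos h hu.1
  have hc : Measurable fun z : (Fin n → ℝ) × (Fin n → ℝ) => Dir.scos G D u z.2 z.1 := by
    simpa only [Function.comp_def, Prod.fst_swap, Prod.snd_swap] using
      hd.comp (measurable_swap (α := Fin n → ℝ) (β := Fin n → ℝ))
  have hFm : Measurable F := by
    have hr : Measurable fun z : (Fin n → ℝ) × (Fin n → ℝ) =>
        s * (Dir.scos G D u z.2 z.1 * Real.sqrt (2 * D z.1 z.2)) :=
      (hc.fun_mul (h.continuous_D.measurable.const_mul 2).sqrt).const_mul s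
    have h3 := (continuous_kern (n := n) hw ((n : ℝ) - 1)).measurable.comp
      ((h.continuous_D.measurable.const_mul (s ^ 2)).prodMk (hr.prodMk hd))
    rw [hF]
    simpa only [rowK, Function.comp_def] using h3
  have hae : ∀ᵐ z ∂μ.prod μ, z.1 ∈ {y | D o y ≤ R} ∧ z.2 ∈ {y | D o y ≤ R} :=
    (Measure.quasiMeasurePreserving_fst.ae hν).and (Measure.quasiMeasurePreserving_snd.ae hν)
  have hFb : ∀ᵐ z ∂μ.prod μ, ‖F z‖ ≤ C := hae.mono fun z hz => by
    obtain ⟨d0, d1⟩ : 0 ≤ D z.1 z.2 ∧ D z.1 z.2 ≤ B' :=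
      ⟨h.dist_nonneg _ _, (hB ⟨z, ⟨hz.1, hz.2⟩, rfl⟩).trans (hB' ▸ le_max_left _ _)⟩
    rw [hF]
    refine hC (_, _, _) ⟨⟨mul_nonneg (sq_nonneg s) d0, mul_le_mul_of_nonneg_left d1 (sq_nonneg s)⟩, abs_le.1 ?_, scos_mem_Icc h u _ _⟩
    rw [abs_mul, abs_mul, abs_of_nonneg hs, abs_of_nonneg (Real.sqrt_nonneg _), hS]
    exact mul_le_mul_of_nonneg_left ((mul_le_of_le_one_left (Real.sqrt_nonneg _)
      (Dir.scos_mem h u _ _)).trans (Real.sqrt_le_sqrt (by linarith))) hs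
  have hFi : Integrable F (μ.prod μ) := Integrable.of_bound hFm.aestronglyMeasurable C hFb
  have hFs : Integrable (fun z => F z.swap) (μ.prod μ) := hFi.swap
  obtain ⟨Ker, hKer⟩ : ∃ Ker : (Fin n → ℝ) × (Fin n → ℝ) → ℝ,
      Ker = fun z => (2 + ε) + (F z + F z.swap) := ⟨_, rfl⟩
  have hKi : Integrable Ker (μ.prod μ) := by
    rw [hKer]; exact (integrable_const _).add (hFi.fun_add hFs)
  have hP : μ.real univ = per G u := by
    rw [hμ, measureReal_def]; exact Sharp.pm_univ h hK hu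
  have e1 : ∫ x, (∫ y, (pairSym G D u w s x y + ε) * (conorm G y (cd u y) * dens G y)) *
      (conorm G x (cd u x) * dens G x) = ∫ z, Ker z ∂μ.prod μ := by
    rw [integral_prod _ hKi, hμ, Sharp.integral_pm h hu.1]
    refine integral_congr_ae (Eventually.of_forall fun x => ?_)
    simp only [Sharp.integral_pm h hu.1, hKer, hF, Prod.swap_prod_mk]
    congr 1
    exact integral_congr_ae (Eventually.of_forall fun y => by
      simp only [pairSym_eq h]; ring)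
  have e2 : ∫ z, F z ∂μ.prod μ ≤ κ * per G u := by
    rw [integral_prod _ hFi, ← hP]
    refine (integral_mono_ae hFi.integral_prod_left (integrable_const κ)
      (hν.mono fun x hx => ?_)).trans (le_of_eq (by rw [integral_const, smul_eq_mul, mul_comm]))
    subst hμ hF
    exact hrow x hx
  rw [e1, hKer, integral_add (integrable_const _) (hFi.fun_add hFs), integral_const,
    integral_add hFi hFs, integral_prod_swap F, ← univ_prod_univ, measureReal_prod_prod, hP,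
    smul_eq_mul]
  linarith

end Vale.Agent.P219.CH.Gen
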