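import Vale.Agent.P219.Gen.Cosine

/-!
# P219: the eighth moment of the cosine of a Gaussian direction
-/

noncomputable section

open MeasureTheory Set Filter Topology Matrix
open scoped RealInnerProductSpace

namespace Vale.Agent.P219.CH.Gen.Cosine

variable {n : ℕ} [NeZero n]

theorem mixed_six {i j : Fin n} (hij : i ≠ j) : mixed i j 6 2 = axis n 8 / 7 := by
  have e : ∀ t : ℝ, mom (fun w => (dir (e i + t • e j) w ^ (2 * 4) +
      dir (e i + (-t) • e j) w ^ (2 * 4))) =
      2 * mixed i j 8 0 + 56 * t ^ 2 * mixed i j 6 2 + 140 * t ^ 4 * mixed i j 4 4 +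
        56 * t ^ 6 * mixed i j 2 6 + 2 * t ^ 8 * mixed j i 8 0 := by
    intro t
    simp only [mixed, mom, ← integral_const_mul]
    have i1 := (integrable_dir_mul (Cosine.e i) (Cosine.e j) 8 0).const_mul 2
    have i2 := (integrable_dir_mul (Cosine.e i) (Cosine.e j) 6 2).const_mul (56 * t ^ 2)
    have i3 := (integrable_dir_mul (Cosine.e i) (Cosine.e j) 4 4).const_mul (140 * t ^ 4)
    have i4 := (integrable_dir_mul (Cosine.e i) (Cosine.e j) 2 6).const_mul (56 * t ^ 6)
    have i12 : Integrable fun w => 2 * (phi w * (dir (Cosine.e i) w ^ 8 * dir (Cosine.e j) w ^ 0)) +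
      56 * t ^ 2 * (phi w * (dir (Cosine.e i) w ^ 6 * dir (Cosine.e j) w ^ 2)) := i1.add i2
    have i123 : Integrable fun w => 2 * (phi w * (dir (Cosine.e i) w ^ 8 * dir (Cosine.e j) w ^ 0)) +
      56 * t ^ 2 * (phi w * (dir (Cosine.e i) w ^ 6 * dir (Cosine.e j) w ^ 2)) +
      140 * t ^ 4 * (phi w * (dir (Cosine.e i) w ^ 4 * dir (Cosine.e j) w ^ 4)) := i12.add i3
    have i1234 : Integrable fun w =>
      2 * (phi w * (dir (Cosine.e i) w ^ 8 * dir (Cosine.e j) w ^ 0)) +
      56 * t ^ 2 * (phi w * (dir (Cosine.e i) w ^ 6 * dir (Cosine.e j) w ^ 2)) +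
      140 * t ^ 4 * (phi w * (dir (Cosine.e i) w ^ 4 * dir (Cosine.e j) w ^ 4)) +
      56 * t ^ 6 * (phi w * (dir (Cosine.e i) w ^ 2 * dir (Cosine.e j) w ^ 6)) := i123.add i4
    rw [← integral_add i1 i2, ← integral_add i12 i3, ← integral_add i123 i4,
      ← integral_add i1234 ((integrable_dir_mul _ _ 8 0).const_mul (2 * t ^ 8))]
    refine integral_congr_ae (Eventually.of_forall fun w => ?_)
    simp only [dir, inner_add_left, real_inner_smul_left]
    ring
  have h1 := rotated hij 1 4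
  have h2 := rotated hij 2 4
  have h3 := rotated hij 3 4
  rw [e, mixed_zero, mixed_zero] at h1 h2 h3
  linarith

theorem axis_eight : ((n : ℝ) + 6) * axis n 8 = 7 * axis n 6 := by
  have h : axis n 6 = (1 + ((n : ℝ) - 1) * (1 / 7)) * axis n (6 + 2) := axis_rec fun j hj => by
    rw [mixed_six (Ne.symm hj)]; ring
  linarith

end Vale.Agent.P219.CH.Gen.Cosine
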