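import Vale.Agent.P219.Gen.Defs
import Vale.Agent.P219.Six.Polar

/-!
# P219, any dimension: polar coordinates along geodesics from one point
-/

noncomputable section

open MeasureTheory Set Filter Topology Matrix
open scoped ENNReal

namespace Vale.Agent.P219.CH.Gen

open Six (Phase vnorm fibre volM IsExp continuous_vnorm_right vnorm_smul_of_nonneg lintegral_smul_eq lintegral_logv abs_det_fderiv_logv_le)

lemma integrableOn_radial (m : ℕ) :
    IntegrableOn (fun r : ℝ => r ^ m * Real.exp (-(r ^ 2 / 2))) (Ioi 0) := by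
  refine (integrableOn_rpow_mul_exp_neg_mul_sq (b := 1 / 2) (by norm_num) (s := (m : ℝ))
    (neg_one_lt_zero.trans_le m.cast_nonneg)).congr_fun ?_ measurableSet_Ioi
  intro r _
  simp only [Real.rpow_natCast]
  congr 2
  ring

/-- The radial integral is at most `radial n / a ^ n`, in product form. -/
lemma radial_le (m : ℕ) {a : ℝ} (ha : 0 < a) :
    ∫⁻ t in Ioi (0 : ℝ), ENNReal.ofReal
        (a ^ (m + 1) * (t⁻¹ ^ (m + 2) * Real.exp (-((a / t) ^ 2 / 2)))) ≤
      ENNReal.ofReal (radial (m + 1)) := by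
  set g : ℝ → ℝ≥0∞ := fun r => ENNReal.ofReal (r ^ m * Real.exp (-(r ^ 2 / 2)))
  set φ : ℝ → ℝ := fun t => a / t
  have hd : ∀ t ∈ Ioi (0 : ℝ), HasDerivWithinAt φ (-(a / t ^ 2)) (Ioi 0) t := fun t ht => by
    have h := (hasDerivAt_inv (mem_Ioi.1 ht).ne').const_mul a
    refine (h.congr_deriv (by ring)).hasDerivWithinAt.congr (fun s _ => ?_) ?_ <;>
      simp [φ, div_eq_mul_inv]
  have hinj : InjOn φ (Ioi 0) := fun s hs t ht hst => by
    simp only [φ] at hst
    rw [div_eq_div_iff (mem_Ioi.1 hs).ne' (mem_Ioi.1 ht).ne'] at hst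
    exact mul_left_cancel₀ ha.ne' hst.symm
  have himg : φ '' Ioi 0 ⊆ Ioi 0 := by
    rintro _ ⟨t, ht, rfl⟩
    exact mem_Ioi.2 (div_pos ha (mem_Ioi.1 ht))
  have h1 := lintegral_image_eq_lintegral_abs_deriv_mul measurableSet_Ioi hd hinj g
  calc ∫⁻ t in Ioi (0 : ℝ),
        ENNReal.ofReal (a ^ (m + 1) * (t⁻¹ ^ (m + 2) * Real.exp (-((a / t) ^ 2 / 2))))
      = ∫⁻ t in Ioi (0 : ℝ), ENNReal.ofReal |(-(a / t ^ 2))| * g (φ t) := by
        refine setLIntegral_congr_fun measurableSet_Ioi fun t ht => ?_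
        have ht' : 0 < t := mem_Ioi.1 ht
        simp only [g, φ]
        rw [← ENNReal.ofReal_mul (abs_nonneg _), abs_neg, abs_of_pos (by positivity)]
        congr 1
        rw [pow_succ, pow_add, div_pow a t m, inv_pow, inv_pow]
        ring
    _ = ∫⁻ s in φ '' Ioi 0, g s := h1.symm
    _ ≤ ∫⁻ s in Ioi 0, g s := lintegral_mono_set himg
    _ = ENNReal.ofReal (radial (m + 1)) := by
        rw [radial, Nat.add_sub_cancel, ofReal_integral_eq_lintegral_ofReal (integrableOn_radial m)
          (ae_restrict_of_forall_mem measurableSet_Ioi fun r hr => by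
            have : (0 : ℝ) < r := hr
            positivity)]

variable {m : ℕ} {G : (Fin (m + 1) → ℝ) → Matrix (Fin (m + 1)) (Fin (m + 1)) ℝ}
  {e : Phase (m + 1) → Fin (m + 1) → ℝ} {f : (Fin (m + 1) → ℝ) → ℝ≥0∞}

/-- The integrand at time `t` as a function of `w = t v`. -/
@[irreducible] def radialFn (G : (Fin (m + 1) → ℝ) → Matrix (Fin (m + 1)) (Fin (m + 1)) ℝ)
    (e : Phase (m + 1) → Fin (m + 1) → ℝ) (f : (Fin (m + 1) → ℝ) → ℝ≥0∞)
    (x w : Fin (m + 1) → ℝ) (t : ℝ) : ℝ≥0∞ :=
  ENNReal.ofReal (dens G x * Real.exp (-((vnorm G x w / t) ^ 2 / 2))) * (f (e (x, w)) *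
    ENNReal.ofReal (vnorm G x w ^ (m + 1) / t))

lemma measurable_radialFn (he : Continuous e) (hf : Measurable f) (x : Fin (m + 1) → ℝ) :
    Measurable (Function.uncurry (radialFn G e f x)) := by
  have hcx : Continuous fun w => e (x, w) := he.comp (continuous_const.prodMk continuous_id)
  have hn : Measurable fun p : (Fin (m + 1) → ℝ) × ℝ => vnorm G x p.1 :=
    (continuous_vnorm_right (G := G) x).measurable.comp measurable_fst
  rw [show Function.uncurry (radialFn G e f x) = fun p : (Fin (m + 1) → ℝ) × ℝ =>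
      ENNReal.ofReal (dens G x * Real.exp (-((vnorm G x p.1 / p.2) ^ 2 / 2))) * (f (e (x, p.1)) *
        ENNReal.ofReal (vnorm G x p.1 ^ (m + 1) / p.2)) from funext fun p => by
    simp [Function.uncurry, radialFn.eq_def]]
  refine (Measurable.ennreal_ofReal ?_).mul ((hf.comp (hcx.measurable.comp measurable_fst)).mul
    (Measurable.ennreal_ofReal ?_))
  · exact measurable_const.mul ((((hn.div measurable_snd).pow_const 2).div_const 2).neg.exp)
  · exact (hn.pow_const (m + 1)).div measurable_snd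

lemma integrand_eq (x v : Fin (m + 1) → ℝ) {t : ℝ} (ht : 0 < t) :
    ENNReal.ofReal (fibre G x v) * (f (Six.line e (x, v) t) *
      ENNReal.ofReal ((t * vnorm G x v) ^ m * vnorm G x v)) =
        radialFn G e f x (t • v) t := by
  simp only [radialFn.eq_def, fibre, Six.line, vnorm_smul_of_nonneg ht.le]
  rw [mul_div_cancel_left₀ _ ht.ne']
  congr 3
  rw [pow_succ, mul_div_assoc, mul_div_cancel_left₀ _ ht.ne']

lemma measurable_integrand (he : Continuous e) (hf : Measurable f) (x : Fin (m + 1) → ℝ) :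
    Measurable fun p : (Fin (m + 1) → ℝ) × ℝ => ENNReal.ofReal (fibre G x p.1) *
      (f (Six.line e (x, p.1) p.2) *
        ENNReal.ofReal ((p.2 * vnorm G x p.1) ^ m * vnorm G x p.1)) := by
  have hc : Continuous fun p : (Fin (m + 1) → ℝ) × ℝ => e (x, p.2 • p.1) :=
    he.comp (continuous_const.prodMk (continuous_snd.smul continuous_fst))
  have hn : Measurable fun p : (Fin (m + 1) → ℝ) × ℝ => vnorm G x p.1 :=
    (continuous_vnorm_right (G := G) x).measurable.comp measurable_fst
  have hfib : Measurable fun p : (Fin (m + 1) → ℝ) × ℝ => fibre G x p.1 := by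
    unfold fibre
    exact measurable_const.mul (((hn.pow_const 2).div_const 2).neg.exp)
  exact hfib.ennreal_ofReal.mul ((hf.comp hc.measurable).mul
    ((((measurable_snd.mul hn).pow_const m).mul hn).ennreal_ofReal))

lemma radialFn_le (x w : Fin (m + 1) → ℝ) (hd : 0 ≤ dens G x) :
    ∫⁻ t in Ioi (0 : ℝ), ENNReal.ofReal ((t ^ (m + 1))⁻¹) * radialFn G e f x w t ≤
      ENNReal.ofReal (radial (m + 1)) * (ENNReal.ofReal (dens G x) * f (e (x, w))) := by
  rcases (Six.vnorm_nonneg (G := G) x w).eq_or_lt with h0 | h0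
  · simp [radialFn.eq_def, ← h0]
  have e1 : ∀ t ∈ Ioi (0 : ℝ), ENNReal.ofReal ((t ^ (m + 1))⁻¹) * radialFn G e f x w t =
      (ENNReal.ofReal (dens G x) * f (e (x, w))) * ENNReal.ofReal (vnorm G x w ^ (m + 1) *
        (t⁻¹ ^ (m + 2) * Real.exp (-((vnorm G x w / t) ^ 2 / 2)))) := by
    intro t ht
    have ht' : 0 < t := mem_Ioi.1 ht
    simp only [radialFn.eq_def]
    rw [show vnorm G x w ^ (m + 1) * (t⁻¹ ^ (m + 2) * Real.exp (-((vnorm G x w / t) ^ 2 / 2))) =
        (t ^ (m + 1))⁻¹ * (Real.exp (-((vnorm G x w / t) ^ 2 / 2)) *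
          (vnorm G x w ^ (m + 1) / t)) by
      rw [show m + 2 = (m + 1) + 1 by rfl, pow_succ t⁻¹ (m + 1), inv_pow]
      ring,
      ENNReal.ofReal_mul hd, ENNReal.ofReal_mul (inv_nonneg.2 (by positivity)),
      ENNReal.ofReal_mul (Real.exp_pos _).le]
    ring
  rw [setLIntegral_congr_fun measurableSet_Ioi e1, lintegral_const_mul _ (by fun_prop),
    mul_comm (ENNReal.ofReal (radial (m + 1)))]
  exact mul_le_mul' le_rfl (radial_le m h0)

lemma swap_and_scale (he : Continuous e) (hf : Measurable f) (x : Fin (m + 1) → ℝ) :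
    ∫⁻ v, ENNReal.ofReal (fibre G x v) * ∫⁻ t in Ioi (0 : ℝ),
        f (Six.line e (x, v) t) * ENNReal.ofReal ((t * vnorm G x v) ^ m * vnorm G x v) =
      ∫⁻ w, ∫⁻ t in Ioi (0 : ℝ), ENNReal.ofReal ((t ^ (m + 1))⁻¹) * radialFn G e f x w t := by
  have hΦ := measurable_radialFn (G := G) he hf x
  have hH := measurable_integrand (G := G) he hf x
  have h1 : ∀ t ∈ Ioi (0 : ℝ), (∫⁻ v, ENNReal.ofReal (fibre G x v) * (f (Six.line e (x, v) t) *
      ENNReal.ofReal ((t * vnorm G x v) ^ m * vnorm G x v))) =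
      ∫⁻ w, ENNReal.ofReal ((t ^ (m + 1))⁻¹) * radialFn G e f x w t := by
    intro t ht
    have hm : Measurable fun w => radialFn G e f x w t :=
      hΦ.comp (measurable_id.prodMk measurable_const)
    have e1 := lintegral_congr (μ := (volume : Measure (Fin (m + 1) → ℝ)))
      fun v => integrand_eq (G := G) (e := e) (f := f) x v (mem_Ioi.1 ht)
    have e2 := lintegral_smul_eq (n := m + 1) (mem_Ioi.1 ht) (fun w => radialFn G e f x w t) hm
    exact e1.trans (e2.trans (lintegral_const_mul _ hm).symm)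
  have hS : Measurable (Function.uncurry fun (t : ℝ) (w : Fin (m + 1) → ℝ) =>
      ENNReal.ofReal ((t ^ (m + 1))⁻¹) * radialFn G e f x w t) :=
    ((measurable_fst.pow_const (m + 1)).inv.ennreal_ofReal).mul (hΦ.comp measurable_swap)
  rw [← lintegral_lintegral_swap hS.aemeasurable, ← setLIntegral_congr_fun measurableSet_Ioi h1,
    ← lintegral_lintegral_swap hH.aemeasurable]
  exact lintegral_congr fun v => (lintegral_const_mul' _ _ ENNReal.ofReal_ne_top).symm

/-- Polar coordinates with the comparison theorem of Rauch. -/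
theorem polarPin (n : ℕ) : PolarPin n := by
  intro hn
  obtain ⟨k, rfl⟩ : ∃ k, n = k + 1 := ⟨n - 1, by omega⟩
  intro G D e h he x f hf
  rw [Nat.add_sub_cancel]
  have hec := he.contDiff.continuous
  have hcx : Continuous fun w => e (x, w) := hec.comp (continuous_const.prodMk continuous_id)
  rw [swap_and_scale hec hf x]
  calc ∫⁻ w, ∫⁻ t in Ioi (0 : ℝ), ENNReal.ofReal ((t ^ (k + 1))⁻¹) * radialFn G e f x w t
      ≤ ∫⁻ w, ENNReal.ofReal (radial (k + 1)) * (ENNReal.ofReal (dens G x) * f (e (x, w))) :=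
        lintegral_mono fun w => radialFn_le x w (h.dens_pos x).le
    _ = ENNReal.ofReal (radial (k + 1)) * ∫⁻ w, ENNReal.ofReal (dens G x) * f (e (x, w)) :=
        lintegral_const_mul _ (measurable_const.mul (hf.comp hcx.measurable))
    _ ≤ ENNReal.ofReal (radial (k + 1)) * ∫⁻ y, f y ∂volM G := by
        refine mul_le_mul' le_rfl ?_
        rw [lintegral_logv h he x, volM,
          lintegral_withDensity_eq_lintegral_mul _ h.continuous_dens.measurable.ennreal_ofReal hf]
        refine lintegral_mono fun y => ?_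
        rw [he.exp_logv, Pi.mul_apply, ← mul_assoc, ← ENNReal.ofReal_mul (abs_nonneg _)]
        exact mul_le_mul' (ENNReal.ofReal_le_ofReal (abs_det_fderiv_logv_le h x y)) le_rfl

end Vale.Agent.P219.CH.Gen
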