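import Vale.Agent.P219.Gen.Defs
import Vale.Agent.P219.Gen.Polar

/-!
# P219, any dimension: the normalisations and the law of the cosine of a Gaussian direction

The square root of the metric and a reflection move any covector to the first axis.
-/

noncomputable section

open MeasureTheory Set Filter Topology Matrix
open scoped ENNReal RealInnerProductSpace MatrixOrder

namespace Vale.Agent.P219.CH.Gen

namespace Moment

variable {n : ℕ}

/-- The Gaussian weight. -/
def phi (w : EuclideanSpace ℝ (Fin n)) : ℝ := Real.exp (-(‖w‖ ^ 2 / 2))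

lemma continuous_phi : Continuous (phi (n := n)) := by unfold phi; fun_prop

lemma norm_toLp_sq (v : Fin n → ℝ) : ‖(WithLp.toLp 2 v : EuclideanSpace ℝ (Fin n))‖ ^ 2 = v ⬝ᵥ v := by
  rw [EuclideanSpace.norm_sq_eq]
  simp [dotProduct, Real.norm_eq_abs, sq_abs, ← sq]

lemma norm_toLp (v : Fin n → ℝ) :
    ‖(WithLp.toLp 2 v : EuclideanSpace ℝ (Fin n))‖ = Real.sqrt (v ⬝ᵥ v) := by
  rw [← norm_toLp_sq, Real.sqrt_sq (norm_nonneg _)]

lemma integral_phi : ∫ w : EuclideanSpace ℝ (Fin n), phi w = mass n := by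
  rw [mass, ← (PiLp.volume_preserving_toLp (Fin n)).integral_comp
    (MeasurableEquiv.toLp 2 (Fin n → ℝ)).measurableEmbedding phi]
  simp [phi, norm_toLp_sq]

lemma integrable_phi [NeZero n] : Integrable (phi (n := n)) := by
  refine (integrable_fun_norm_addHaar (volume : Measure (EuclideanSpace ℝ (Fin n)))
    (f := fun r : ℝ => Real.exp (-(r ^ 2 / 2)))).2 ?_
  refine (integrableOn_radial (n - 1)).congr_fun ?_ measurableSet_Ioi
  intro r _
  simp [finrank_euclideanSpace_fin]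

theorem mass_eq [NeZero n] : mass n = n * Bend.unitBall n * radial n := by
  rw [← integral_phi, Bend.unitBall, radial]
  have h := integral_fun_norm_addHaar (volume : Measure (EuclideanSpace ℝ (Fin n)))
    (fun r : ℝ => Real.exp (-(r ^ 2 / 2)))
  simp only [finrank_euclideanSpace_fin, smul_eq_mul, nsmul_eq_mul, Measure.real] at h
  simp only [phi]
  rw [h]
  ring

theorem mass_pos [NeZero n] : 0 < mass n := by
  rw [← integral_phi]
  simp only [phi]
  exact integral_exp_pos (integrable_phi (n := n))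

lemma lintegral_isometry (L : EuclideanSpace ℝ (Fin n) ≃ₗᵢ[ℝ] EuclideanSpace ℝ (Fin n))
    (F : EuclideanSpace ℝ (Fin n) → ℝ≥0∞) :
    ∫⁻ w, ENNReal.ofReal (phi w) * F (L w) = ∫⁻ w, ENNReal.ofReal (phi w) * F w := by
  have h := L.measurePreserving.lintegral_comp_emb L.toHomeomorph.measurableEmbedding
    fun w => ENNReal.ofReal (phi w) * F w
  simpa [phi] using h

lemma lintegral_rotate [NeZero n] {η : EuclideanSpace ℝ (Fin n)} (hη : η ≠ 0) (F : ℝ → ℝ≥0∞) :
    ∫⁻ w, ENNReal.ofReal (phi w) * F (⟪η, w⟫ / (‖η‖ * ‖w‖)) =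
      ∫⁻ w : EuclideanSpace ℝ (Fin n), ENNReal.ofReal (phi w) * F (w 0 / ‖w‖) := by
  set e0 : EuclideanSpace ℝ (Fin n) := EuclideanSpace.single 0 1
  have he : ∀ w : EuclideanSpace ℝ (Fin n), ⟪e0, w⟫ = w 0 := fun w => by
    simp [e0, EuclideanSpace.inner_single_left]
  have hn : ‖η‖ = ‖‖η‖ • e0‖ := by simp [norm_smul, e0]
  obtain ⟨L, hL⟩ : ∃ L : EuclideanSpace ℝ (Fin n) ≃ₗᵢ[ℝ] EuclideanSpace ℝ (Fin n),
      L η = ‖η‖ • e0 := ⟨(ℝ ∙ (η - ‖η‖ • e0))ᗮ.reflection, Submodule.reflection_sub hn⟩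
  rw [← lintegral_isometry L fun w => F (w 0 / ‖w‖)]
  refine lintegral_congr fun w => ?_
  congr 2
  have h1 : ⟪η, w⟫ = ‖η‖ * (L w) 0 := by
    rw [← L.inner_map_map, hL, real_inner_smul_left, he]
  rw [h1, L.norm_map, mul_div_mul_left _ _ (norm_ne_zero_iff.2 hη)]

lemma abs_coord_le (w : EuclideanSpace ℝ (Fin n)) (i : Fin n) : |w i / ‖w‖| ≤ 1 := by
  rw [abs_div, abs_norm]
  refine div_le_one_of_le₀ ?_ (norm_nonneg _)
  simpa using PiLp.norm_apply_le w i

/-- The one-sided law on the first axis. -/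
theorem lintegral_side [NeZero n] {g : ℝ → ℝ} {B : ℝ} (hg : Measurable g)
    (hb : ∀ c ∈ Icc (0 : ℝ) 1, 0 ≤ g c ∧ g c ≤ B) :
    ∫⁻ w : EuclideanSpace ℝ (Fin n), ENNReal.ofReal (phi w) *
        (Ioi (0 : ℝ)).indicator (fun c => ENNReal.ofReal (g c)) (w 0 / ‖w‖) =
      ENNReal.ofReal (mass n * cmean n g) := by
  set k : EuclideanSpace ℝ (Fin n) → ℝ := fun w => (Ioi (0 : ℝ)).indicator g (w 0 / ‖w‖)
  have hk : ∀ w, 0 ≤ k w ∧ k w ≤ max B 0 := fun w => by
    by_cases hw : w 0 / ‖w‖ ∈ Ioi (0 : ℝ)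
    · have := hb _ ⟨le_of_lt hw, (abs_le.1 (abs_coord_le w 0)).2⟩
      simp only [k, indicator_of_mem hw]
      exact ⟨this.1, this.2.trans (le_max_left _ _)⟩
    · simp [k, indicator_of_notMem hw]
  have hx : Measurable fun w : EuclideanSpace ℝ (Fin n) => w 0 / ‖w‖ :=
    (PiLp.continuous_apply 2 _ 0).measurable.div measurable_norm
  have hkm : Measurable k := (hg.indicator measurableSet_Ioi).comp hx
  have hi : Integrable fun w => phi w * k w :=
    integrable_phi.mul_bdd (c := max B 0) hkm.aestronglyMeasurable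
      (Eventually.of_forall fun w => by rw [Real.norm_eq_abs, abs_of_nonneg (hk w).1]; exact (hk w).2)
  have e1 : ∫ w, phi w * k w = mass n * cmean n g := by
    rw [cmean, mul_div_cancel₀ _ mass_pos.ne', ← (PiLp.volume_preserving_toLp (Fin n)).integral_comp
      (MeasurableEquiv.toLp 2 (Fin n → ℝ)).measurableEmbedding]
    refine integral_congr_ae (Eventually.of_forall fun v => ?_)
    simp only [phi, k]
    rw [norm_toLp_sq, norm_toLp]
    congr 1
    by_cases h0 : 0 < v 0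
    · have hp : 0 < Real.sqrt (v ⬝ᵥ v) := Real.sqrt_pos.2
        (Finset.sum_pos' (fun j _ => mul_self_nonneg _) ⟨0, Finset.mem_univ _, mul_pos h0 h0⟩)
      rw [indicator_of_mem (show v 0 / Real.sqrt (v ⬝ᵥ v) ∈ Ioi (0 : ℝ) from div_pos h0 hp),
        indicator_of_mem (show v ∈ {v : Fin n → ℝ | 0 < v 0} from h0)]
    · rw [indicator_of_notMem (show v 0 / Real.sqrt (v ⬝ᵥ v) ∉ Ioi (0 : ℝ) from
          not_lt.2 (div_nonpos_of_nonpos_of_nonneg (not_lt.1 h0) (Real.sqrt_nonneg _))),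
        indicator_of_notMem (show v ∉ {v : Fin n → ℝ | 0 < v 0} from h0)]
  rw [← e1, ofReal_integral_eq_lintegral_ofReal hi
    (Eventually.of_forall fun w => mul_nonneg (Real.exp_pos _).le (hk w).1)]
  refine lintegral_congr fun w => ?_
  rw [ENNReal.ofReal_mul (p := phi w) (Real.exp_pos _).le]
  congr 1
  exact congrFun (indicator_comp_of_zero ENNReal.ofReal_zero) _

/-- Transfer of a Gaussian integral from the tangent space. -/
lemma lintegral_fibre {G : (Fin n → ℝ) → Matrix (Fin n) (Fin n) ℝ} {x : Fin n → ℝ}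
    {B : Matrix (Fin n) (Fin n) ℝ} (hB0 : B.det ≠ 0) (hdens : dens G x = |B.det|)
    (hvn : ∀ v, Six.vnorm G x v = ‖(WithLp.toLp 2 (B *ᵥ v) : EuclideanSpace ℝ (Fin n))‖)
    {F : EuclideanSpace ℝ (Fin n) → ℝ≥0∞} (hF : Measurable F) :
    ∫⁻ v, ENNReal.ofReal (Six.fibre G x v) * F (WithLp.toLp 2 (B *ᵥ v)) =
      ∫⁻ w, ENNReal.ofReal (phi w) * F w := by
  have hm : Measurable fun v : Fin n → ℝ =>
      ENNReal.ofReal (phi (WithLp.toLp 2 v : EuclideanSpace ℝ (Fin n))) * F (WithLp.toLp 2 v) :=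
    (continuous_phi.measurable.comp (WithLp.measurable_toLp 2 _)).ennreal_ofReal.mul
      (hF.comp (WithLp.measurable_toLp 2 _))
  have e1 : ∀ v, ENNReal.ofReal (Six.fibre G x v) * F (WithLp.toLp 2 (B *ᵥ v)) =
      ENNReal.ofReal |B.det| *
        (ENNReal.ofReal (phi (WithLp.toLp 2 (B *ᵥ v) : EuclideanSpace ℝ (Fin n))) *
          F (WithLp.toLp 2 (B *ᵥ v))) := fun v => by
    rw [← mul_assoc, Six.fibre, hdens, ENNReal.ofReal_mul (abs_nonneg _), hvn, phi]
  simp only [e1]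
  rw [lintegral_const_mul' _ _ ENNReal.ofReal_ne_top]
  have hmap := Real.map_matrix_volume_pi_eq_smul_volume_pi (M := B) hB0
  have e2 : ∫⁻ v, ENNReal.ofReal (phi (WithLp.toLp 2 (B *ᵥ v) : EuclideanSpace ℝ (Fin n))) *
      F (WithLp.toLp 2 (B *ᵥ v)) =
      ∫⁻ v, ENNReal.ofReal (phi (WithLp.toLp 2 v : EuclideanSpace ℝ (Fin n))) *
        F (WithLp.toLp 2 v) ∂(Measure.map (toLin' B) volume) := by
    rw [lintegral_map hm (LinearMap.continuous_of_finiteDimensional _).measurable]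
    simp [Matrix.toLin'_apply]
  rw [e2, hmap, lintegral_smul_measure, smul_eq_mul, ← mul_assoc,
    ← ENNReal.ofReal_mul (abs_nonneg _), ← abs_mul, mul_inv_cancel₀ hB0, abs_one,
    ENNReal.ofReal_one, one_mul, ← (PiLp.volume_preserving_ofLp (Fin n)).lintegral_comp hm]

end Moment

open Moment

/-- `MomentPin`. -/
theorem momentPin (n : ℕ) [NeZero n] : MomentPin n := by
  refine fun _ => ⟨mass_pos, mass_eq, fun G x ξ hM => ?_⟩
  set B := CFC.sqrt (G x)
  have hBB : B * B = G x := CFC.sqrt_mul_sqrt_self (G x) hM.posSemidef.nonneg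
  have hBs : Bᵀ = B := by
    have := (CFC.sqrt_nonneg (G x)).posSemidef.isHermitian.eq
    rwa [Matrix.conjTranspose_eq_transpose_of_trivial] at this
  have hdet : B.det * B.det = (G x).det := by rw [← det_mul, hBB]
  have hB0 : B.det ≠ 0 := fun h => hM.det_pos.ne' (by rw [← hdet, h, mul_zero])
  have hdens : dens G x = |B.det| := by
    rw [dens, ← hdet, Real.sqrt_mul_self_eq_abs]
  set η : EuclideanSpace ℝ (Fin n) := WithLp.toLp 2 (B⁻¹ *ᵥ ξ)
  have hvn : ∀ v, Six.vnorm G x v = ‖(WithLp.toLp 2 (B *ᵥ v) : EuclideanSpace ℝ (Fin n))‖ := fun v => by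
    rw [Six.vnorm, ← hBB, ← Matrix.mulVec_mulVec, EuclideanSpace.norm_eq]
    congr 1
    rw [dotProduct_mulVec, ← mulVec_transpose, hBs]
    simp [dotProduct, sq]
  have hin : ∀ v, ξ ⬝ᵥ v = ⟪η, WithLp.toLp 2 (B *ᵥ v)⟫ := fun v => by
    rw [EuclideanSpace.inner_toLp_toLp, star_trivial, dotProduct_comm, dotProduct_mulVec,
      ← mulVec_transpose, Matrix.transpose_nonsing_inv, hBs, Matrix.mulVec_mulVec,
      Matrix.nonsing_inv_mul _ (Ne.isUnit hB0),
      Matrix.one_mulVec, dotProduct_comm]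
  have hco : conorm G x ξ = ‖η‖ := by
    have hBi : B⁻¹ᵀ = B⁻¹ := by rw [Matrix.transpose_nonsing_inv, hBs]
    rw [conorm, pairing, ← hBB, Matrix.mul_inv_rev, ← Matrix.mulVec_mulVec, EuclideanSpace.norm_eq]
    congr 1
    rw [dotProduct_mulVec, ← mulVec_transpose, hBi]
    simp [η, dotProduct, sq]
  refine ⟨?_, fun g b hg hb => ?_⟩
  · have h := lintegral_fibre hB0 hdens hvn (F := fun _ => 1) measurable_const
    simp only [mul_one] at h
    rw [h, ← ofReal_integral_eq_lintegral_ofReal integrable_phi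
      (Eventually.of_forall fun w => (Real.exp_pos _).le), integral_phi]
  rcases eq_or_ne η 0 with hη | hη
  · simp [hin, hη]
  set F : EuclideanSpace ℝ (Fin n) → ℝ≥0∞ := fun w =>
    (Ioi (0 : ℝ)).indicator (fun c => ENNReal.ofReal (g c)) (⟪η, w⟫ / (‖η‖ * ‖w‖))
  have hF : Measurable F := (hg.ennreal_ofReal.indicator measurableSet_Ioi).comp
    ((continuous_const.inner continuous_id).measurable.div (measurable_const.mul measurable_norm))
  have e : ∀ v, {v | 0 < ξ ⬝ᵥ v}.indicator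
      (fun v => ENNReal.ofReal (g (ξ ⬝ᵥ v / (conorm G x ξ * Six.vnorm G x v)))) v =
        F (WithLp.toLp 2 (B *ᵥ v)) := fun v => by
    simp only [F, Set.indicator, mem_ofPred_eq, mem_Ioi, hin, hco, hvn]
    obtain ⟨w, hw'⟩ : ∃ w : EuclideanSpace ℝ (Fin n), w = WithLp.toLp 2 (B *ᵥ v) := ⟨_, rfl⟩
    rw [← hw']
    rcases eq_or_ne w 0 with hw | hw
    · simp [hw]
    have hp : 0 < ‖η‖ * ‖w‖ := mul_pos (norm_pos_iff.2 hη) (norm_pos_iff.2 hw)
    simp only [lt_div_iff₀ hp, zero_mul]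
  simp only [e]
  rw [lintegral_fibre hB0 hdens hvn hF]
  simp only [F]
  rw [lintegral_rotate hη fun t => (Ioi (0 : ℝ)).indicator (fun c => ENNReal.ofReal (g c)) t,
    lintegral_side hg hb]

end Vale.Agent.P219.CH.Gen
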