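import Vale.Agent.P219.Gen.PairWeights

/-!
# The pair integral along geodesics, any dimension
-/

noncomputable section

open MeasureTheory Set Filter Topology Matrix
open scoped ENNReal

namespace Vale.Agent.P219.CH.Gen

variable {n : ℕ} {G : (Fin n → ℝ) → Matrix (Fin n) (Fin n) ℝ}
  {D : (Fin n → ℝ) → (Fin n → ℝ) → ℝ} {u : (Fin n → ℝ) → ℝ}
  {o : Fin n → ℝ} {R ε s T : ℝ} {w : ℝ × ℝ → ℝ}

lemma measurable_pairB_left (h : IsCH G D) (hu : ContDiff ℝ 1 u) (hw : ContDiff ℝ 1 w)
    (x : Fin n → ℝ) : Measurable fun y => pairB G D u w s ε x y := by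
  have hm := (measurable_pairB (s := s) (ε := ε) h hu hw).comp
    (measurable_prodMk_left (β := Fin n → ℝ) (x := x))
  exact hm

/-- The double Lebesgue integral of the pair integrand as a real integral. -/
theorem ofReal_pair_integral (h : IsCH G D) (hu : Comp {y | D o y ≤ R} u) (hw : ContDiff ℝ 1 w)
    (hs : 0 ≤ s) (hT : ∀ x y, D o x ≤ R → D o y ≤ R → s * Real.sqrt (2 * D x y) ≤ T)
    (hP : ∀ r c d, r ∈ Icc 0 T → c ∈ Icc (-1 : ℝ) 1 → d ∈ Icc (-1 : ℝ) 1 → -ε ≤ sym n w r c d) :
    0 ≤ ∫ x, (∫ y, (pairSym G D u w s x y + ε) * (conorm G y (cd u y) * dens G y)) *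
        (conorm G x (cd u x) * dens G x) ∧
    ENNReal.ofReal (∫ x, (∫ y, (pairSym G D u w s x y + ε) *
        (conorm G y (cd u y) * dens G y)) * (conorm G x (cd u x) * dens G x)) =
      ∫⁻ x, (∫⁻ y, ENNReal.ofReal (pairB G D u w s ε x y) ∂Six.volM G) ∂Six.volM G := by
  have hK := h.proper o R
  obtain ⟨C0, hC0⟩ := ((isCompact_Icc (a := (0 : ℝ)) (b := T)).prod
    ((isCompact_Icc (a := (-1 : ℝ)) (b := 1)).prod (isCompact_Icc (a := (-1 : ℝ)) (b := 1)))).bddAbove_image
      ((continuous_sym (n := n) hw).add continuous_const (g := fun _ => ε)).continuousOn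
  set C := max C0 0
  have hBle : ∀ x y, pairB G D u w s ε x y ≤ C * (conorm G x (cd u x) * conorm G y (cd u y)) := by
    intro x y
    have hout : ∀ z, ¬D o z ≤ R → conorm G z (cd u z) = 0 := fun z hz => by
      rw [cd_eq_zero_of_notMem fun hs' => hz (hu.2.1 hs'), conorm_zero]
    by_cases hx : D o x ≤ R
    swap
    · simp [pairB, hout x hx]
    by_cases hy : D o y ≤ R
    swap
    · simp [pairB, hout y hy]
    refine mul_le_mul_of_nonneg_right (le_trans ?_ (le_max_left C0 0))
      (mul_nonneg (conorm_nonneg _ _) (conorm_nonneg _ _))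
    exact hC0 ⟨(_, _, _), ⟨⟨mul_nonneg hs (Real.sqrt_nonneg _), hT x y hx hy⟩,
      scos_mem_Icc h u y x, scos_mem_Icc h u x y⟩, rfl⟩
  have hBm := measurable_pairB (s := s) (ε := ε) h hu.1 hw
  have hB0 : ∀ x y, 0 ≤ pairB G D u w s ε x y := pairB_nonneg h hu hs hT hP
  have hi1 : Integrable fun y => conorm G y (cd u y) * dens G y := by
    simpa using h.integrable_mul_conorm hK hu (continuous_const (y := (1 : ℝ)))
  have hBi : ∀ x, Integrable fun y => pairB G D u w s ε x y * dens G y := fun x => by
    refine Integrable.mono' (hi1.const_mul (C * conorm G x (cd u x)))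
      ((measurable_pairB_left h hu.1 hw x).fun_mul h.continuous_dens.measurable).aestronglyMeasurable
      (Eventually.of_forall fun y => ?_)
    rw [Real.norm_eq_abs, abs_mul, abs_of_nonneg (hB0 x y), abs_of_pos (h.dens_pos y)]
    exact (mul_le_mul_of_nonneg_right (hBle x y) (h.dens_pos y).le).trans (le_of_eq (by ring))
  have hm2 : Measurable fun z : (Fin n → ℝ) × (Fin n → ℝ) =>
      pairB G D u w s ε z.1 z.2 * dens G z.2 :=
    hBm.fun_mul (h.continuous_dens.measurable.comp measurable_snd)
  have hIm : StronglyMeasurable fun x => ∫ y, pairB G D u w s ε x y * dens G y :=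
    StronglyMeasurable.integral_prod_right'
      (f := fun z : (Fin n → ℝ) × (Fin n → ℝ) => pairB G D u w s ε z.1 z.2 * dens G z.2)
      hm2.stronglyMeasurable
  have hI0 : ∀ x, 0 ≤ ∫ y, pairB G D u w s ε x y * dens G y :=
    fun x => integral_nonneg fun y => mul_nonneg (hB0 x y) (h.dens_pos y).le
  have hOm : StronglyMeasurable fun x => (∫ y, pairB G D u w s ε x y * dens G y) * dens G x :=
    hIm.mul h.continuous_dens.stronglyMeasurable
  have hOi : Integrable fun x => (∫ y, pairB G D u w s ε x y * dens G y) * dens G x := by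
    refine Integrable.mono' (hi1.const_mul (C * per G u)) hOm.aestronglyMeasurable
      (Eventually.of_forall fun x => ?_)
    rw [Real.norm_eq_abs, abs_mul, abs_of_nonneg (hI0 x), abs_of_pos (h.dens_pos x)]
    calc (∫ y, pairB G D u w s ε x y * dens G y) * dens G x
        ≤ (∫ y, C * conorm G x (cd u x) * (conorm G y (cd u y) * dens G y)) * dens G x := by
          refine mul_le_mul_of_nonneg_right (integral_mono (hBi x) (hi1.const_mul _) fun y => ?_)
            (h.dens_pos x).le
          exact (mul_le_mul_of_nonneg_right (hBle x y) (h.dens_pos y).le).trans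
            (le_of_eq (by ring))
      _ = _ := by rw [integral_const_mul, per]; ring
  have heq : (fun x => (∫ y, (pairSym G D u w s x y + ε) * (conorm G y (cd u y) * dens G y)) *
        (conorm G x (cd u x) * dens G x)) =
      fun x => (∫ y, pairB G D u w s ε x y * dens G y) * dens G x := by
    funext x
    rw [← mul_assoc, ← integral_mul_const]
    congr 1
    exact integral_congr_ae (Eventually.of_forall fun y => by simp only [pairB]; ring)
  rw [heq]
  refine ⟨integral_nonneg fun x => mul_nonneg (hI0 x) (h.dens_pos x).le, ?_⟩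
  rw [ofReal_integral_eq_lintegral_ofReal hOi
      (Eventually.of_forall fun x => mul_nonneg (hI0 x) (h.dens_pos x).le), Six.volM,
    lintegral_withDensity_eq_lintegral_mul _ h.continuous_dens.measurable.ennreal_ofReal
      (Measurable.lintegral_prod_right' (f := fun z : (Fin n → ℝ) × (Fin n → ℝ) =>
        ENNReal.ofReal (pairB G D u w s ε z.1 z.2)) hBm.ennreal_ofReal)]
  refine lintegral_congr fun x => ?_
  simp only [Pi.mul_apply]
  rw [lintegral_withDensity_eq_lintegral_mul _ h.continuous_dens.measurable.ennreal_ofReal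
      (g := fun y => ENNReal.ofReal (pairB G D u w s ε x y))
      (measurable_pairB_left h hu.1 hw x).ennreal_ofReal,
    ENNReal.ofReal_mul (hI0 x), mul_comm,
    ofReal_integral_eq_lintegral_ofReal (hBi x)
      (Eventually.of_forall fun y => mul_nonneg (hB0 x y) (h.dens_pos y).le)]
  congr 1
  exact lintegral_congr fun y => by
    simp only [Pi.mul_apply]; rw [ENNReal.ofReal_mul (hB0 x y), mul_comm]

/-- The pair integral from its parts. -/
theorem pairAssembly (n : ℕ) [NeZero n] : PairAssemblyPin n := by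
  intro hline hflow hpolar hmom hn a b hcert G D e h he o R η s ε T w u hη hη2 hs hε hT hw hP hF hu
  obtain ⟨hI, hIE⟩ := ofReal_pair_integral h hu hw hs.le hT hP
  obtain ⟨B, haB⟩ := hcert.a_bounded
  have ha0 := hcert.a_nonpos
  obtain ⟨hM, hMrad, -⟩ := hmom hn
  have hrad : 0 ≤ radial n :=
    setIntegral_nonneg measurableSet_Ioi fun r hr => mul_nonneg (pow_nonneg (le_of_lt hr) _)
      (Real.exp_pos _).le
  have hB := (measurable_pairB (s := s) (ε := ε) h hu.1 hw).ennreal_ofReal
  have : SFinite (Six.volM G) := by unfold Six.volM; infer_instance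
  set PK : Six.Phase n × ℝ → ℝ≥0∞ := fun z =>
    ENNReal.ofReal (pairB G D u w s ε z.1.1 (Six.line e z.1 z.2)) *
      ENNReal.ofReal ((z.2 * Six.vnorm G z.1.1 z.1.2) ^ (n - 1) * Six.vnorm G z.1.1 z.1.2)
  have hNm : Measurable fun z : Six.Phase n × ℝ => Six.vnorm G z.1.1 z.1.2 :=
    h.continuous_vnorm.measurable.comp measurable_fst
  have hPK : Measurable PK :=
    (hB.comp ((measurable_fst.comp measurable_fst).prodMk he.continuous_line.measurable)).mul
      (((measurable_snd.mul hNm).pow_const (n - 1)).mul hNm).ennreal_ofReal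
  have hPKi : Measurable fun p => ∫⁻ t in Ioi (0 : ℝ), PK (p, t) := hPK.lintegral_prod_right'
  have hpol : ∫⁻ p, (∫⁻ t in Ioi (0 : ℝ), PK (p, t)) ∂Six.liou G ≤ ENNReal.ofReal (radial n) *
      ∫⁻ x, (∫⁻ y, ENNReal.ofReal (pairB G D u w s ε x y) ∂Six.volM G) ∂Six.volM G := by
    rw [lintegral_phase h hPKi, ← lintegral_const_mul _ (hB.lintegral_prod_right' (ν := Six.volM G))]
    exact lintegral_mono fun x =>
      hpolar hn G D e h he x (fun y => ENNReal.ofReal (pairB G D u w s ε x y))
        (measurable_pairB_left h hu.1 hw x).ennreal_ofReal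
  have hA := measurable_pairA (η := η) hflow h he hu.1
  have hW := (hA.mul ((measurable_pairW h hu.1 hcert.measurable_a ε).comp measurable_fst))
  have hmain : ENNReal.ofReal (2 * b * s) * ∫⁻ p, pairH e u η p ∂Six.liou G ≤
      ENNReal.ofReal (s ^ (n - 1)) * (ENNReal.ofReal (radial n) *
          ∫⁻ x, (∫⁻ y, ENNReal.ofReal (pairB G D u w s ε x y) ∂Six.volM G) ∂Six.volM G) +
        ENNReal.ofReal (mass n * (ε + cmean n fun c => -a c) * per G u) +
        ENNReal.ofReal (mass n * (0 + cmean n fun c => -a c) * per G u) := by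
    refine le_trans ?_ (add_le_add (add_le_add (mul_le_mul_right hpol _)
      (lintegral_entries_le hn hline hflow hmom h he hu hcert.measurable_a ha0 haB hη hη2 hε.le))
      (lintegral_exits_le hn hline hflow hmom h he hu hcert.measurable_a ha0 haB hη hη2 le_rfl))
    have hWi : Measurable fun p => ∫⁻ t in Ioi (0 : ℝ), pairA e u η (p, t) * pairW G u a ε p :=
      hW.lintegral_prod_right'
    rw [← lintegral_const_mul _ (measurable_pairH hflow h he hu.1),
      ← lintegral_const_mul _ hPKi, ← lintegral_add_left (hPKi.const_mul _),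
      ← lintegral_add_left ((hPKi.const_mul _).fun_add hWi)]
    refine lintegral_mono fun p => ?_
    have m1 : Measurable fun t => PK (p, t) := hPK.comp measurable_prodMk_left
    have m2 : Measurable fun t => pairA e u η (p, t) * pairW G u a ε p :=
      (hA.comp measurable_prodMk_left).mul_const _
    simp only [pairH]
    rw [← lintegral_const_mul' _ _ ENNReal.ofReal_ne_top, ← lintegral_const_mul _ m1,
      ← lintegral_add_left (m1.const_mul _), ← lintegral_add_left ((m1.const_mul _).fun_add m2)]
    exact setLIntegral_mono' measurableSet_Ioi fun t ht =>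
      pairA_le hflow h he hu hcert.b_nonneg hs hε.le hT hP hF p ht
  rw [← hIE] at hmain
  have hall := (mul_le_mul_right (le_lintegral_pairH hn hline hflow hmom h he hu hη hη2) _).trans hmain
  generalize ∫ x, (∫ y, (pairSym G D u w s x y + ε) * (conorm G y (cd u y) * dens G y)) *
    (conorm G x (cd u x) * dens G x) = I at hall hI ⊢
  have hP0 := h.per_nonneg u
  have hE : 0 ≤ cmean n fun c => -a c := cmean_nonneg hM fun c hc => by linarith [ha0 c hc]
  have hb := hcert.b_nonneg
  rw [hcert.value] at hall hE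
  rw [← ENNReal.ofReal_mul hrad, ← ENNReal.ofReal_mul (pow_nonneg hs.le (n - 1)),
    ← ENNReal.ofReal_mul (by positivity), ← ENNReal.ofReal_add (by positivity) (by positivity),
    ← ENNReal.ofReal_add (by positivity) (by positivity),
    ENNReal.ofReal_le_ofReal_iff (by positivity)] at hall
  linarith

end Vale.Agent.P219.CH.Gen
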