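import Vale.Agent.P219.Gen.Assembly
import Vale.Agent.P219.Gen.PairAssembly
import Vale.Agent.P219.Six.Line
import Vale.Agent.P219.Six.Flow
import Vale.Agent.P219.Dir.Row
import Vale.Agent.P219.CH.Min
import Vale.Agent.P219.Gen.Polar
import Vale.Agent.P219.Gen.Moment

/-!
# A certificate gives the sharp inequality, any dimension
-/

noncomputable section

namespace Vale.Agent.P219.CH.Gen

/-- A certificate in dimension `n` gives the sharp inequality from `IsCH` alone. -/
theorem sharpDim_of_parts (n : ℕ) [NeZero n] (hn : 3 ≤ n) (hpolar : PolarPin n)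
    (hmom : MomentPin n) {a : ℝ → ℝ} {b : ℝ} (hcert : Cert n a b) : SharpDim n :=
  assembly n hn (minPin n) (Dir.dirRowPin n) hmom
    (pairAssembly n Six.Line.linePin (Six.flowPin n) hpolar hmom) a b hcert

/-- A certificate in dimension `n` is all that is needed. -/
theorem sharpDim_of_cert (n : ℕ) [NeZero n] (hn : 3 ≤ n) {a : ℝ → ℝ} {b : ℝ}
    (hcert : Cert n a b) : SharpDim n :=
  sharpDim_of_parts n hn (polarPin n) (momentPin n) hcert

end Vale.Agent.P219.CH.Gen
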