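import Vale.Agent.P219.Gen.Polar
import Vale.Agent.P219.Bend.Jacobian

/-!
# P219: polar coordinates in curvature at most `-b ^ 2`
-/

noncomputable section

open MeasureTheory Set Filter Topology Matrix
open scoped ENNReal

namespace Vale.Agent.P219.CH.Gen

open Six (Phase vnorm fibre volM IsExp lintegral_logv)

/-- `sfac` is the ratio of the two generalised sines. -/
theorem mul_sfac (b r : ℝ) : r * Bend.sfac b (r ^ 2 / 2) = sn b r := by
  rw [Bend.sfac, show 2 * b ^ 2 * (r ^ 2 / 2) = (b * r) ^ 2 by ring]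
  by_cases hb : b = 0
  · simp [sn, hb, Bend.cshd_zero]
  rw [sn, if_neg hb, eq_div_iff hb, ← Bend.two_mul_cshd_sq (b * r)]
  ring

/-- The geodesic change of variables from one point against the space form of curvature `-b ^ 2`. -/
def PolarBendPin (n : ℕ) : Prop :=
  2 ≤ n → ∀ (G : (Fin n → ℝ) → Matrix (Fin n) (Fin n) ℝ)
    (D : (Fin n → ℝ) → (Fin n → ℝ) → ℝ) (e : Phase n → Fin n → ℝ) (b : ℝ),
    IsCH G D → Bend.BendCH G D b → IsExp G D e →
    ∀ (x : Fin n → ℝ) (f : (Fin n → ℝ) → ℝ≥0∞), Measurable f →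
      ∫⁻ v, ENNReal.ofReal (fibre G x v) * ∫⁻ t in Ioi (0 : ℝ),
          f (Six.line e (x, v) t) *
            ENNReal.ofReal (sn b (t * vnorm G x v) ^ (n - 1) * vnorm G x v) ≤
        ENNReal.ofReal (radial n) * ∫⁻ y, f y ∂volM G

/-- Polar coordinates with the comparison theorem of Guenther. -/
theorem polarBendPin (n : ℕ) : PolarBendPin n := by
  intro hn
  obtain ⟨k, rfl⟩ : ∃ k, n = k + 1 := ⟨n - 1, by omega⟩
  intro G D e b h hb he x f hf
  rw [Nat.add_sub_cancel]
  have hec := he.contDiff.continuous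
  have hcx : Continuous fun w => e (x, w) := hec.comp (continuous_const.prodMk continuous_id)
  have hs : Continuous fun y => Bend.sfac b (D x y) ^ k :=
    ((continuous_const.mul ((Bend.contDiff_cshd (k := 1)).continuous.comp
      (continuous_const.mul (h.contDiff_D x).continuous))).pow k)
  set g : (Fin (k + 1) → ℝ) → ℝ≥0∞ := fun y => f y * ENNReal.ofReal (Bend.sfac b (D x y) ^ k)
  have hg : Measurable g := hf.mul hs.measurable.ennreal_ofReal
  have key : ∀ v, ∀ t ∈ Ioi (0 : ℝ), f (Six.line e (x, v) t) *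
      ENNReal.ofReal (sn b (t * vnorm G x v) ^ k * vnorm G x v) =
      g (Six.line e (x, v) t) * ENNReal.ofReal ((t * vnorm G x v) ^ k * vnorm G x v) := fun v t ht => by
    have ht' : 0 < t := ht
    have hD : D x (Six.line e (x, v) t) = (t * vnorm G x v) ^ 2 / 2 := by
      have h1 := Six.logv_self_dot h x (Six.line e (x, v) t)
      rw [Six.line, he.logv_exp] at h1
      rw [mul_pow, Six.vnorm_sq h, Six.line]
      simp only [mulVec_smul, dotProduct_smul, smul_dotProduct, smul_eq_mul] at h1
      linarith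
    have hp : 0 ≤ Bend.sfac b (D x (Six.line e (x, v) t)) ^ k :=
      pow_nonneg (Bend.sfac_pos b (h.dist_nonneg _ _)).le k
    simp only [g]
    rw [mul_assoc, ← ENNReal.ofReal_mul hp, hD, ← mul_sfac b (t * vnorm G x v), mul_pow]
    congr 2
    ring
  simp only [fun v => setLIntegral_congr_fun (μ := volume) measurableSet_Ioi (key v)]
  rw [swap_and_scale hec hg x]
  calc ∫⁻ w, ∫⁻ t in Ioi (0 : ℝ), ENNReal.ofReal ((t ^ (k + 1))⁻¹) * radialFn G e g x w t
      ≤ ∫⁻ w, ENNReal.ofReal (radial (k + 1)) * (ENNReal.ofReal (dens G x) * g (e (x, w))) :=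
        lintegral_mono fun w => radialFn_le x w (h.dens_pos x).le
    _ = ENNReal.ofReal (radial (k + 1)) * ∫⁻ w, ENNReal.ofReal (dens G x) * g (e (x, w)) :=
        lintegral_const_mul _ (measurable_const.mul (hg.comp hcx.measurable))
    _ ≤ ENNReal.ofReal (radial (k + 1)) * ∫⁻ y, f y ∂volM G := by
        refine mul_le_mul' le_rfl ?_
        rw [lintegral_logv h he x, volM,
          lintegral_withDensity_eq_lintegral_mul _ h.continuous_dens.measurable.ennreal_ofReal hf]
        refine lintegral_mono fun y => ?_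
        have hp : 0 ≤ Bend.sfac b (D x y) ^ k := pow_nonneg (Bend.sfac_pos b (h.dist_nonneg _ _)).le k
        rw [he.exp_logv, Pi.mul_apply]
        simp only [g]
        rw [← mul_assoc, mul_comm (f y), ← mul_assoc, ← ENNReal.ofReal_mul (abs_nonneg _),
          ← ENNReal.ofReal_mul (mul_nonneg (abs_nonneg _) (h.dens_pos x).le)]
        exact mul_le_mul' (ENNReal.ofReal_le_ofReal
          (Bend.abs_det_fderiv_logv_le_sfac h hb x y)) le_rfl

end Vale.Agent.P219.CH.Gen
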